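import Vale.Agent.P366Q.B.Defs
import Vale.Agent.P366M.End1
import Vale.Agent.P366Y.B.Chd
import Vale.Agent.P366Y.B.Fars

/-!
# P366Q, block B: the charges as volume integrals (row CHD), Schwarzschild ends (row FARS)
-/

open MeasureTheory Metric Filter Topology Set Asymptotics
open scoped ContDiff ENNReal
open Vale.Agent.P366.Stmt Vale.Agent.P366Z Vale.Agent.P366Z.St0

noncomputable section

namespace Vale.Agent.P366Y.B

open Chd in
/-- row CHD -/
theorem chd2_of (h1 : MAS1) (hM : MAT) : P366M.Y.B.CHD := by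
  intro n g K q C R m P B sy dk hK hP
  have hn : (3 : ℝ) ≤ n := by exact_mod_cast B.dim
  have hq : 0 < q := by linarith [B.q0]
  have hn0 : 0 < n := by have := B.dim; omega
  have hC := B.C0
  refine ⟨h1 n (yv g) m B.dim (fun i => ContDiff.sum fun j _ =>
    ContDiff.sub ((B.met.sm i j).pd j) ((B.met.sm j j).pd i)) B.en, fun j => ?_⟩
  have k1 := h1 n (fun i x => 2 * momT g K x i j) (P j) B.dim
    (fun i => ContDiff.mul contDiff_const (sm_momT B.met sy i j)) (by
      refine Eq.mp (congrArg (fun W => Tendsto (flx W) atTop (𝓝 (P j))) ?_) (hP j)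
      funext i x
      simp only [momT, B.met.sy x i j, sy.sy x i j]
      ring)
  obtain ⟨e, he, L, hL, hm⟩ := hM n
  obtain ⟨c, hc, hcut⟩ := fderiv_cut n
  have hs : ∀ᶠ ρ : ℝ in atTop, C * ρ ^ (-q) ≤ e := by
    have := (tendsto_rpow_neg_atTop hq).const_mul C
    rw [mul_zero] at this
    exact this.eventually (eventually_le_nhds he)
  have k2 := small hn0 (f := fun ρ x => ∑ i, pd i (cut ρ) x * (pe K x i j - momT g K x i j))
    (A := n * (c * (C * C + n * (n * (L * C * C))))) B.q0 (by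
      filter_upwards [hs, eventually_ge_atTop R] with ρ s1 hR x
      have h0 : 0 < ρ := by linarith [B.R1]
      refine ⟨?_, fun hx => Finset.sum_eq_zero fun i _ => by
        rw [pd_cut_out h0 (by linarith), zero_mul]⟩
      rcases lt_or_ge ‖x‖ ρ with hx | hx
      · simp only [pd_cut_in hx, zero_mul, Finset.sum_const_zero, abs_zero]
        positivity
      have m : ∀ p : ℝ, 0 < p → C * ‖x‖ ^ (-p) ≤ C * ρ ^ (-p) := fun p hp =>
        mul_le_mul_of_nonneg_left (Real.rpow_le_rpow_of_nonpos h0 hx (by linarith)) hC.le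
      have a1 : ∀ i j, |g x i j - eu n x i j| ≤ C * ρ ^ (-q) := fun i j =>
        (B.af x (hR.trans hx) i j i i).1.trans (m q hq)
      refine (sumb fun i => mulb ((abs_pd_le ((sm_cut ρ).diff x) i).trans (hcut ρ h0 x))
        (quad a1 (hm g x _ B.met (by positivity) s1 a1).1
        (fun a b => (hK x (hR.trans hx) a b a).1.trans (m _ (by linarith)))
        ((dk x (hR.trans hx)).trans (m _ (by linarith))) i j)).trans (le_of_eq ?_)
      have e1 : ρ ^ (-(2 * q + 2)) = ρ ^ (-q) * ρ ^ (-(q + 1)) / ρ := by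
        rw [← Real.rpow_add h0, ← Real.rpow_sub_one h0.ne']
        congr 1
        ring
      rw [e1]
      ring)
  have k3 := (k1.div_const 2).add k2
  rw [show -(2 * ((n : ℝ) - 1) * omega n * P j) / 2 + 0 = -((n - 1) * omega n * P j) by ring] at k3
  refine k3.congr' ?_
  filter_upwards [eventually_gt_atTop 0] with ρ h0
  have i1 : ∀ W : Fin n → E n → ℝ, (∀ i, Smooth (W i)) →
      Integrable fun x => ∑ i, pd i (cut ρ) x * W i x := fun W hW =>
    integrable_finsetSum _ fun i _ => by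
      simpa only [mul_comm] using (lip_cut h0).integrable_pd (fun _ => cut_zero h0) (hW i).cont i
  rw [← integral_div, ← integral_add ((i1 _ fun i =>
    ContDiff.mul contDiff_const (sm_momT B.met sy i j)).div_const 2)
    (i1 _ fun i => ContDiff.sub (sm_pe sy i j) (sm_momT B.met sy i j))]
  congr 1
  funext x
  rw [Finset.sum_div, ← Finset.sum_add_distrib]
  exact Finset.sum_congr rfl fun i _ => by ring

open FarsH in
theorem fars2 {n : ℕ} {g K : Field n} {a T : ℝ} (hn : 3 ≤ n) (ha : 0 ≤ a)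
    (h : ∀ y, T ≤ ‖y‖ → (∀ i j, g y i j = (1 + a * ‖y‖ ^ (2 - n : ℝ)) ^ (2 * bb n) * eu n y i j) ∧
      K y = 0) : (∃ q : ℝ, (n : ℝ) / 2 - 1 < q ∧ ∀ i j k l,
    BigO q (fun x => g x i j - if i = j then 1 else 0) ∧
    BigO (q + 1) (pd k fun x => g x i j) ∧ BigO (q + 1 + 1) (pd l (pd k fun x => g x i j)) ∧
    BigO (q + 1) (fun x => K x i j) ∧ BigO (q + 1 + 1) (pd k fun x => K x i j)) ∧
    Tendsto (flx fun i x => (∑ j, (pd j (fun y => g y i j) x - pd i (fun y => g y j j) x)) / 2)
      atTop (𝓝 (2 * a)) := by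
  have h0 : 0 < n := by omega
  have nb : ∀ x : E n, max T 0 < ‖x‖ → ∀ᶠ y in 𝓝 x, max T 0 < ‖y‖ := fun x hx =>
    (isOpen_lt continuous_const continuous_norm).mem_nhds hx
  have e0 : ∀ i j, ∀ x : E n, max T 0 < ‖x‖ →
      g x i j = ps n a ‖x‖ ^ (2 * bb n) * if i = j then 1 else 0 := fun i j x hx =>
    (h x ((le_max_left _ _).trans hx.le)).1 i j
  have e1 : ∀ i j k, ∀ x : E n, max T 0 < ‖x‖ → pd k (fun y => g y i j) x =
      (-4 * a * if i = j then 1 else 0) *
        (ps n a ‖x‖ ^ (2 * bb n - 1) * x k * ‖x‖ ^ (-n : ℝ)) := fun i j k x hx => by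
    rw [pd_congr ((nb x hx).mono (e0 i j)), pd_mul_const,
      d_ps ha (norm_pos_iff.1 ((le_max_right _ _).trans_lt hx)),
      show 2 * bb n * (2 - n) = -4 by linear_combination -2 * nm2_bb hn]
    ring
  have eK : ∀ i j, ∀ x : E n, max T 0 < ‖x‖ → K x i j = 0 := fun i j x hx => by
    rw [(h x ((le_max_left _ _).trans hx.le)).2]
    rfl
  have s := fun k => ((s_ps hn ha (2 * bb n - 1)).mul (s_co k)).mul (s_pw (n := n) (-n))
  refine ⟨⟨n - 2, by linarith [nm2_pos hn], fun i j k l => ⟨big (EventuallyEq.trans_isBigO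
      ((ev (max T 0)).mono fun x hx => ?_) ((o_sub hn a (2 * bb n)).const_mul_left
        (if i = j then 1 else 0))) (by ring),
    big (EventuallyEq.trans_isBigO ((ev _).mono (e1 i j k)) ((s k).d0.const_mul_left _)) (by ring),
    big (EventuallyEq.trans_isBigO ((ev _).mono fun x hx =>
      (pd_congr ((nb x hx).mono (e1 i j k)) l).trans (pd_const_mul _ l))
        (((s k).d1 l).const_mul_left _)) (by ring),
    big (EventuallyEq.trans_isBigO ((ev _).mono (eK i j)) (isBigO_zero _ _)) rfl,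
    big (EventuallyEq.trans_isBigO ((ev _).mono fun x hx =>
      (pd_congr ((nb x hx).mono (eK i j)) k).trans (pd_const 0 k x)) (isBigO_zero _ _)) rfl⟩⟩, ?_⟩
  · show g x i j - _ = _
    rw [e0 i j x hx]
    ring
  have l2 := (lim1 hn a (2 * bb n - 1)).const_mul (2 * a)
  rw [mul_one] at l2
  refine l2.congr' ((eventually_gt_atTop (max T 0)).mono fun r hr => ?_)
  have r0 : 0 < r := (le_max_right _ _).trans_lt hr
  have e : ∀ θ : sphere (0 : E n) 1, ‖r • θ.1‖ = r := fun θ => by
    rw [norm_smul, norm_eq_of_mem_sphere, mul_one, Real.norm_of_nonneg r0.le]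
  have e2 : ∀ x : E n, ‖x‖ = r → ∑ i, (∑ j, (pd j (fun y => g y i j) x -
      pd i (fun y => g y j j) x)) / 2 * (x i / len x) =
      2 * a * (n - 1) * ps n a r ^ (2 * bb n - 1) * (r ^ (n - 1))⁻¹ := fun x hx => by
    have e3 : r ^ (-n : ℝ) = (r ^ (n - 1) * r)⁻¹ := by
      rw [← pow_succ, Nat.sub_add_cancel h0, Real.rpow_neg r0.le, Real.rpow_natCast]
    have e4 : ∀ i, (∑ j, (pd j (fun y => g y i j) x - pd i (fun y => g y j j) x)) / 2 *
        (x i / len x) = 2 * a * (n - 1) * ps n a r ^ (2 * bb n - 1) * (r ^ (n - 1))⁻¹ / r ^ 2 *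
          x i ^ 2 := fun i => by
      simp only [e1 _ _ _ x (hx ▸ hr), len, hx, e3, Finset.sum_sub_distrib, mul_ite, ite_mul,
        mul_one, mul_zero, zero_mul, Finset.sum_ite_eq, Finset.mem_univ, if_true, Finset.sum_const,
        Finset.card_univ, Fintype.card_fin, nsmul_eq_mul]
      field_simp
      ring
    simp only [e4]
    rw [← Finset.mul_sum, ← norm_sq_eq, hx, div_mul_cancel₀ _ (by positivity)]
  have w0 := (omega_pos h0).ne'
  have w1 : (n : ℝ) - 1 ≠ 0 := by linarith [nm2_pos hn]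
  have w2 : ∀ c : ℝ, ∫ _ : sphere (0 : E n) 1, c ∂(vol n).toSphere = c * omega n := fun c => by
    rw [omega, sphInt, sph, one_pow, one_mul, ← integral_const_mul, mul_one]
  simp only [flx, sphInt, sph, fun θ => e2 _ (e θ), w2]
  field_simp

/-- row FARS -/
theorem fars3 : P366M.Y.B.FARS := by
  intro n M _ D a T hn ha h
  refine fars2 (g := P366M.fe D.g) (K := P366M.fe D.K) (T := max T (P366M.R0 M)) hn ha
    fun y hy => ?_
  have e : P366M.px (P366M.yp y : M) = y :=
    P366M.px_yp (by linarith [(le_max_right _ _).trans hy])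
  have := h (P366M.yp y) (by rw [e]; exact (le_max_left _ _).trans hy)
  rw [e] at this
  exact this

end Vale.Agent.P366Y.B
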