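import Vale.Agent.P366Q.B.Defs
import Vale.Agent.P366D.Map
import Vale.Agent.P366Y.B.Bnd
import Vale.Agent.P366Y.B.Bst

/-!
# P366Q, block B, row FARM: the boosted slice is bent to the static slice
-/

open MeasureTheory Metric Filter Topology Set
open scoped ContDiff ENNReal
open Vale.Agent.P366.Stmt Vale.Agent.P366Z Vale.Agent.P366Z.St0
open Vale.Agent.P366Y.A (Sy)
open Vale.Agent.P366.T1 (pull)
open Vale.Agent.P366D (pb pb_congr cd_pb pb_sy mat_pb posDef_conj)
open Vale.Agent.P366M (jac jac_eq jac_id)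

noncomputable section

namespace Vale.Agent.P366Y.B

namespace FarmH

open BndH

variable {n : ℕ}

/-- the bending function with its form -/
theorem bnd2 (v : Fin n → ℝ) (T : ℝ) {e : ℝ} (he : 0 < e) : ∃ (f : E n → ℝ) (T' : ℝ), Smooth f ∧
    (∀ y, ‖y‖ ≤ T → f y = lv v y) ∧ (∀ y, T' ≤ ‖y‖ → f y = 0) ∧
    ∀ y, ∃ s ∈ Icc (0 : ℝ) 1, f y = s * lv v y ∧ ∀ i, |pd i f y - s * v i| ≤ e := by
  obtain ⟨D, hD0, hD⟩ := der_bd
  obtain ⟨S, hS⟩ : ∃ S, S = ∑ i, |v i| := ⟨_, rfl⟩
  have hS0 : 0 ≤ S := hS ▸ Finset.sum_nonneg fun i _ => abs_nonneg _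
  obtain ⟨ε, hε⟩ : ∃ ε, ε = e / (2 * D * S + 1) := ⟨_, rfl⟩
  have hε0 : 0 < ε := hε ▸ by positivity
  have hsm : Smooth fun y : E n => Real.smoothTransition (ar ε T y) := sm_st.comp (sm_ar ε T)
  refine ⟨fun y => Real.smoothTransition (ar ε T y) * lv v y, (1 + T ^ 2) * Real.exp (1 / ε),
    hsm.mul (sm_lv v), fun y hy => ?_, fun y hy => ?_, fun y => ?_⟩
  · have h1 : Real.log (1 + ‖y‖ ^ 2) ≤ Real.log (1 + T ^ 2) :=
      Real.log_le_log (by positivity) (by nlinarith [norm_nonneg y])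
    have : 1 ≤ ar ε T y := by unfold ar; nlinarith
    simp only [Real.smoothTransition.one_of_one_le this, one_mul]
  · have h0 : 1 ≤ (1 + T ^ 2) * Real.exp (1 / ε) :=
      one_le_mul_of_one_le_of_one_le (by nlinarith) (Real.one_le_exp (by positivity))
    have h1 : Real.log ((1 + T ^ 2) * Real.exp (1 / ε)) ≤ Real.log (1 + ‖y‖ ^ 2) :=
      Real.log_le_log (by positivity) (by nlinarith)
    rw [Real.log_mul (by positivity) (by positivity), Real.log_exp] at h1
    have h2 : ε * (1 / ε) = 1 := by field_simp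
    have : ar ε T y ≤ 0 := by unfold ar; nlinarith
    simp only [Real.smoothTransition.zero_of_nonpos this, zero_mul]
  · refine ⟨Real.smoothTransition (ar ε T y), ⟨Real.smoothTransition.nonneg _,
      Real.smoothTransition.le_one _⟩, rfl, fun i => ?_⟩
    have hd : HasDerivAt Real.smoothTransition (deriv Real.smoothTransition (ar ε T y)) (ar ε T y) :=
      ((sm_st.differentiable (by simp)) _).hasDerivAt
    rw [pd_mul (hsm.diff y) ((sm_lv v).diff y), pd_lv, pd_comp hd ((sm_ar ε T).diff y), pd_ar]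
    have hy := norm_nonneg y
    have hp : 0 < 1 + ‖y‖ ^ 2 := by positivity
    have b1 : |2 * y i / (1 + ‖y‖ ^ 2) * lv v y| ≤ 2 * S := by
      rw [abs_mul, abs_div, abs_mul, abs_two, abs_of_pos hp, div_mul_eq_mul_div, div_le_iff₀ hp]
      have := mul_le_mul (abs_coord y i) (abs_lv v y) (abs_nonneg _) hy
      rw [← hS] at this
      nlinarith
    have b2 : ε * (D * (2 * S)) ≤ e := by
      rw [hε, div_mul_eq_mul_div, div_le_iff₀ (by positivity)]
      nlinarith
    calc _ = ε * (|deriv Real.smoothTransition (ar ε T y)| * |2 * y i / (1 + ‖y‖ ^ 2) * lv v y|) := by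
          rw [← abs_mul, ← abs_of_pos hε0, ← abs_mul, abs_of_pos hε0, ← abs_neg]
          congr 1
          ring
      _ ≤ ε * (D * (2 * S)) :=
          mul_le_mul_of_nonneg_left (mul_le_mul (hD _) b1 (abs_nonneg _) hD0.le) hε0.le
      _ ≤ e := b2

/-- the map `x + c f v` -/
def ph (c : ℝ) (v : Fin n → ℝ) (f : E n → ℝ) (x : E n) : E n := x + (c * f x) • WithLp.toLp 2 v

/-- its Jacobian matrix -/
def Am (c : ℝ) (v p : Fin n → ℝ) : Matrix (Fin n) (Fin n) ℝ :=
  fun k i => (if k = i then 1 else 0) + c * p i * v k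

variable {c : ℝ} {v p : Fin n → ℝ} {f : E n → ℝ} {x : E n}

theorem ph_apply (k : Fin n) : ph c v f x k = x k + c * f x * v k := by
  simp [ph]

theorem sm_ph (hf : Smooth f) : ContDiff ℝ ∞ (ph c v f) :=
  contDiff_id.add ((contDiff_const.mul hf).smul contDiff_const)

theorem jac_ph (hf : Smooth f) (x : E n) : jac (ph c v f) x = Am c v fun i => pd i f x := by
  ext k i
  have d : DifferentiableAt ℝ (fun z : E n => z k) x :=
    (contDiff_coord (m := 1) k).differentiable one_ne_zero x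
  simp only [jac, ph_apply, Am]
  rw [pd_add d (((hf.diff x).const_mul c).mul_const _), pd_mul_const, pd_const_mul, pd_coord]
  simp only [eq_comm]

theorem left_inv (h : 1 + c * ∑ k, p k * v k ≠ 0) : ∃ B, B * Am c v p = 1 := by
  refine ⟨Am (-(c / (1 + c * ∑ k, p k * v k))) v p, ?_⟩
  ext j i
  have e : ∀ t : ℝ, ∑ k, Am t v p j k * Am c v p k i =
      (if j = i then 1 else 0) + (c + t * (1 + c * ∑ k, p k * v k)) * p i * v j := fun t => by
    have e1 : ∑ k, t * p k * v j * (c * p i * v k) = t * c * p i * v j * ∑ k, p k * v k := by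
      rw [Finset.mul_sum]
      exact Finset.sum_congr rfl fun k _ => by ring
    simp only [Am, add_mul, mul_add, Finset.sum_add_distrib, ite_mul, mul_ite, one_mul, zero_mul,
      mul_one, mul_zero, Finset.sum_ite_eq, Finset.sum_ite_eq', Finset.mem_univ, if_true, e1]
    ring
  rw [Matrix.mul_apply, e, neg_mul, div_mul_cancel₀ _ h, Matrix.one_apply]
  ring

theorem le_ph (hc : 0 ≤ c) {s : ℝ} (hs : 0 ≤ s) (h : f x = s * lv v x) : ‖x‖ ≤ ‖ph c v f x‖ := by
  refine (sq_le_sq₀ (norm_nonneg _) (norm_nonneg _)).1 ?_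
  rw [norm_sq_eq, norm_sq_eq]
  have e : ∑ k, ph c v f x k ^ 2 = ∑ k, x k ^ 2 + (2 * (c * s) * lv v x ^ 2 +
      ∑ k, (c * f x * v k) ^ 2) := by
    have e1 : 2 * (c * s) * lv v x ^ 2 = ∑ k, 2 * x k * (c * f x * v k) := by
      rw [h, pow_two, ← mul_assoc]
      nth_rewrite 2 [lv]
      rw [Finset.mul_sum]
      exact Finset.sum_congr rfl fun k _ => by ring
    rw [e1, ← Finset.sum_add_distrib, ← Finset.sum_add_distrib]
    exact Finset.sum_congr rfl fun k _ => by rw [ph_apply]; ring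
  rw [e]
  exact le_add_of_nonneg_right (by positivity)

theorem pb_lin (L : E n ≃L[ℝ] E n) (T : Field n) : pb L T x = pull L T x := by
  funext i j
  simp only [pb, pull, jac_eq L.differentiableAt, L.fderiv]
  rfl

theorem pb_id (T : Field n) : pb (fun z => z) T x = T x := by
  funext i j
  simp [pb, jac_id, Matrix.one_apply]

/-- the metric in the second region -/
def Hm (c : ℝ) (v : Fin n → ℝ) (z : ℝ) (p : Fin n → ℝ) (i j : Fin n) : ℝ :=
  ∑ k, ∑ l, Am c v p k i * Am c v p l j * ((1 + z) ^ (2 * bb n) * if k = l then 1 else 0)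

theorem hm_zero (s : ℝ) (i j : Fin n) : Hm c v 0 (fun k => s * v k) i j =
    (if i = j then 1 else 0) + (2 * c * s + c ^ 2 * s ^ 2 * ∑ k, v k ^ 2) * v i * v j := by
  have e1 : ∑ k, c * (s * v i) * v k * (c * (s * v j) * v k) =
      c ^ 2 * s ^ 2 * v i * v j * ∑ k, v k ^ 2 := by
    rw [Finset.mul_sum]
    exact Finset.sum_congr rfl fun k _ => by ring
  simp only [Hm, Am, add_zero, Real.one_rpow, add_mul, mul_add, Finset.sum_add_distrib, ite_mul,
    mul_ite, one_mul, zero_mul, mul_one, mul_zero, Finset.sum_ite_eq, Finset.sum_ite_eq',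
    Finset.mem_univ, if_true, e1]
  simp only [eq_comm]
  ring

theorem key (hc : 0 ≤ c) (v : Fin n → ℝ) {e : ℝ} (he : 0 < e) : ∃ r > (0 : ℝ),
    ∀ (z s : ℝ) (p : Fin n → ℝ), |z| < r → s ∈ Icc (0 : ℝ) 1 → (∀ i, |p i - s * v i| ≤ r / 2) →
      0 < 1 + c * ∑ k, p k * v k ∧ ∀ i j, |Hm c v z p i j - ((if i = j then 1 else 0) +
        (2 * c * s + c ^ 2 * s ^ 2 * ∑ k, v k ^ 2) * v i * v j)| < e := by
  have k : ∀ᶠ w : ℝ × (Fin n → ℝ) in 𝓝 (0, 0), ∀ s ∈ Icc (0 : ℝ) 1,
      0 < 1 + c * ∑ k, (w.2 k + s * v k) * v k ∧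
        ∀ i j, |Hm c v w.1 (fun k => w.2 k + s * v k) i j - ((if i = j then 1 else 0) +
          (2 * c * s + c ^ 2 * s ^ 2 * ∑ k, v k ^ 2) * v i * v j)| < e := by
    refine isCompact_Icc.eventually_forall_of_forall_eventually fun s hs => Eventually.and ?_ ?_
    · have c1 : ContinuousAt (fun w : (ℝ × (Fin n → ℝ)) × ℝ =>
          1 + c * ∑ k, (w.1.2 k + w.2 * v k) * v k) ((0, 0), s) := by fun_prop
      refine continuousAt_const.eventually_lt c1 ?_
      have : 0 ≤ ∑ k, s * v k * v k := Finset.sum_nonneg fun k _ => by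
        rw [mul_assoc]
        exact mul_nonneg hs.1 (mul_self_nonneg _)
      simp only [Pi.zero_apply, zero_add]
      positivity
    · refine eventually_all.2 fun i => eventually_all.2 fun j => ?_
      have c1 : ContinuousAt (fun w : (ℝ × (Fin n → ℝ)) × ℝ => (1 + w.1.1) ^ (2 * bb n))
          ((0, 0), s) := ContinuousAt.rpow_const (by fun_prop) (Or.inl (by simp))
      have c2 : ContinuousAt (fun w : (ℝ × (Fin n → ℝ)) × ℝ =>
          Hm c v w.1.1 (fun k => w.1.2 k + w.2 * v k) i j) ((0, 0), s) := by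
        unfold Hm Am
        refine tendsto_finsetSum _ fun k _ => tendsto_finsetSum _ fun l _ => ?_
        exact ContinuousAt.mul (by fun_prop) (c1.mul continuousAt_const)
      have c3 : ContinuousAt (fun w : (ℝ × (Fin n → ℝ)) × ℝ =>
          |Hm c v w.1.1 (fun k => w.1.2 k + w.2 * v k) i j - ((if i = j then 1 else 0) +
            (2 * c * w.2 + c ^ 2 * w.2 ^ 2 * ∑ k, v k ^ 2) * v i * v j)|) ((0, 0), s) :=
        (c2.sub (by fun_prop)).abs
      refine c3.eventually_lt continuousAt_const ?_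
      simp only [Pi.zero_apply, zero_add, hm_zero, sub_self, abs_zero, he]
  obtain ⟨r, hr, hk⟩ := Metric.eventually_nhds_iff.1 k
  refine ⟨r, hr, fun z s p hz hs hp => ?_⟩
  have hd : ‖fun i => p i - s * v i‖ < r :=
    ((pi_norm_le_iff_of_nonneg (by positivity)).2 fun i => hp i).trans_lt (half_lt_self hr)
  have := @hk (z, fun i => p i - s * v i) (by
    rw [dist_eq_norm, Prod.mk_sub_mk, sub_zero, sub_zero, Prod.norm_mk]
    exact max_lt hz hd) s hs
  simpa only [sub_add_cancel] using this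

theorem u_small {a y₁ r : ℝ} {u : E n → ℝ} (hu : Su a y₁ u) (hr : 0 < r) (y1 : y₁ ≤ ‖x‖)
    (y2 : a / r + 1 ≤ ‖x‖) : |u x| < r := by
  have y3 : 1 ≤ ‖x‖ := hu.y1.trans y1
  have hn : (3 : ℝ) ≤ n := by exact_mod_cast hu.dim
  have p1 : ‖x‖ ^ (2 - n : ℝ) ≤ ‖x‖ ^ (-1 : ℝ) := Real.rpow_le_rpow_of_exponent_le y3 (by linarith)
  rw [Real.rpow_neg_one] at p1
  rw [abs_of_nonneg (hu.bd x).1, hu.out x y1]
  refine (mul_le_mul_of_nonneg_left p1 hu.a0).trans_lt ?_
  rw [← div_eq_mul_inv, div_lt_iff₀ (by linarith), ← div_lt_iff₀' hr]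
  linarith

end FarmH

open FarmH BstH in
theorem farm_of (sv1 : SV1) (sv2 : SV2) (cls : CLS) : P366M.Y.B.FARM := by
  intro n a y₁ γ u v L hu hL
  have γ1 := hL.γ1
  obtain ⟨c, hc⟩ : ∃ c, c = γ ^ 2 / (1 + γ) := ⟨_, rfl⟩
  have c0 : 0 ≤ c := hc ▸ by positivity
  obtain ⟨S, hS⟩ : ∃ S, S = ∑ k, v k ^ 2 := ⟨_, rfl⟩
  have S0 : 0 ≤ S := hS ▸ by positivity
  refine ⟨max (γ ^ 2) ((2 * c + c ^ 2 * S) * S), fun e e0 => ?_⟩
  obtain ⟨e', e0', T₀, cls⟩ := cls n a y₁ γ u v L hu hL e e0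
  obtain ⟨r, r0, hr⟩ := key c0 v e0
  refine ⟨max T₀ (max y₁ (a / r + 1)), fun T => ?_⟩
  obtain ⟨f, T₁, sf, f1, f2, f3⟩ := bnd2 v (γ * (|T| + 1)) e0'
  obtain ⟨T₂, t1, t2⟩ : ∃ T₂, |T| + 1 ≤ T₂ ∧ |T₁| + 1 ≤ T₂ :=
    ⟨_, le_max_left _ _, le_max_right _ _⟩
  obtain ⟨h, T₃, sh, h1, h2, h3⟩ := bnd2 v T₂ (half_pos r0)
  obtain ⟨m1, m2, m3, m4, m5⟩ := sv2 n a y₁ u hu
  obtain ⟨k1, k2, k3⟩ := sv1 n _ _ f m1 m2 sf (fun y => (m3 y).1) fun y => by
    have k : sφ u y ^ 2 ≤ 1 := pow_le_one₀ (m3 y).1.le (m3 y).2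
    have k' := mul_le_mul k (m4 f y) (m1.ip_nonneg f y) zero_le_one
    obtain ⟨s, hs, -, k''⟩ := f3 y
    linarith [(cls f s y hs k'').1]
  have sp : ContDiff ℝ ∞ (ph c v h) := sm_ph sh
  have inv : ∀ x, ∃ B, B * jac (ph c v h) x = 1 := fun x => by
    obtain ⟨s, hs, -, k⟩ := h3 x
    rw [jac_ph sh]
    exact left_inv (hr 0 s _ (by simpa using r0) hs k).1.ne'
  have lo : ∀ x, ‖x‖ ≤ ‖ph c v h x‖ := fun x => by
    obtain ⟨s, hs, k, -⟩ := h3 x
    exact le_ph c0 hs.1 k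
  have sy : ∀ A : Field n, Sy A → Sy (pb (ph c v h) A) := fun A hA =>
    ⟨fun i j => contDiff_iff_contDiffAt.2 fun _ =>
      cd_pb sp.contDiffAt (fun a b => (hA.sm a b).contDiffAt) i j, fun y => pb_sy (hA.sy _)⟩
  have mG : Met (pb (ph c v h) (sg (sγ u) (sφ u) f)) :=
    ⟨(sy _ ⟨k1.sm, k1.sy⟩).sm, (sy _ ⟨k1.sm, k1.sy⟩).sy, fun y => by
      obtain ⟨B, hB⟩ := inv y
      rw [mat_pb]
      exact posDef_conj (k1.pos _) hB⟩
  have ins : ∀ (A : Field n) (x : E n), ‖x‖ < T₂ → pb (ph c v h) A x = pull L A x :=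
    fun A x hx => by
      rw [← pb_lin]
      refine pb_congr ((ev_gt hx).mono fun y hy => ?_) rfl
      ext k
      rw [ph_apply, h1 y hy.le, hL.eq, hc]
  have z : ∀ y : E n, |T₁| < ‖y‖ → f =ᶠ[𝓝 y] fun _ => 0 := fun y hy =>
    (ev_lt hy).mono fun w hw => f2 w ((le_abs_self _).trans hw.le)
  have k5 : ∀ j, pd j (fun _ : E n => (0 : ℝ)) = fun _ => 0 := fun j =>
    funext fun z => pd_const 0 j z
  refine ⟨_, _, max (|T₃| + 1) (max (|T₁| + 1) y₁), mG, sy _ k2, fun y hy => ?_, fun y hy => ?_,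
    fun y hy => ?_, fun y hy => ?_⟩
  · have y1 : ‖y‖ < |T| + 1 := by linarith [le_abs_self T]
    have ev : f =ᶠ[𝓝 (L y)] lv v :=
      (ev_gt ((hL.hi y).trans_lt (mul_lt_mul_of_pos_left y1 (by linarith)))).mono
        fun z hz => f1 z hz.le
    rw [ins _ y (by linarith), ins _ y (by linarith)]
    exact ⟨pull_pt L (loc ev).1, pull_pt L (loc ev).2⟩
  · obtain ⟨B, hB⟩ := inv y
    have cx := P366P.Chg.ctx ⟨sp.contDiffAt, Matrix.isUnit_det_of_left_inverse hB⟩ k1 mG
      (Eventually.of_forall fun _ _ _ => rfl)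
    obtain ⟨v1, v2⟩ := k3 _ (m5 _ (hy.trans_le (lo y)))
    have e1 := fun j => cx.mom_law (T := sk (sγ u) (sφ u) f) (T' := pb (ph c v h) (sk (sγ u) (sφ u) f))
      (fun k l => (k2.sm k l).diff _) (Eventually.of_forall fun _ _ _ => rfl) j
    rw [cx.mu_law (T := sk (sγ u) (sφ u) f) fun _ _ => rfl, v1]
    simp [covNorm, e1, v2]
  · have y1 : |T₃| < ‖y‖ := by linarith [(le_max_left _ _).trans hy]
    have y2 := (le_max_right _ _).trans hy
    have id : ∀ A : Field n, pb (ph c v h) A y = A y := fun A => by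
      rw [← pb_id A]
      refine pb_congr ((ev_lt y1).mono fun w hw => ?_) rfl
      ext k
      rw [ph_apply, h2 w ((le_abs_self _).trans hw.le), mul_zero, zero_mul, add_zero]
    have k6 := z y (by linarith [(le_max_left _ _).trans y2])
    rw [id, id, (loc k6).1, (loc k6).2]
    refine ⟨fun i j => ?_, ?_⟩
    · simp only [sg, sγ, cf, k5, mul_zero, sub_zero, hu.out y ((le_max_right _ _).trans y2)]
    · funext i j
      simp [sk, hess, k5]
  · rcases lt_or_ge ‖y‖ T₂ with k | k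
    · obtain ⟨s, hs, -, k6⟩ := f3 (L y)
      obtain ⟨w, k7, k8⟩ := (cls f s _ hs k6).2 y rfl ((le_max_left _ _).trans hy)
      refine ⟨w, k7.trans (le_max_left _ _), fun i j => ?_⟩
      rw [ins _ y k]
      exact k8 i j
    · obtain ⟨s, hs, -, k6⟩ := h3 y
      have y2 := ((le_max_right _ _).trans hy).trans (lo y)
      have k7 := (hr _ s _ (u_small hu r0 ((le_max_left _ _).trans y2)
        ((le_max_right _ _).trans y2)) hs k6).2
      rw [← hS] at k7
      have s0 := hs.1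
      have p0 : 0 ≤ 2 * c * s + c ^ 2 * s ^ 2 * S := by positivity
      refine ⟨fun i => √(2 * c * s + c ^ 2 * s ^ 2 * S) * v i, le_trans ?_ (le_max_right _ _),
        fun i j => ?_⟩
      · simp only [mul_pow, Real.sq_sqrt p0, ← Finset.mul_sum, ← hS]
        refine mul_le_mul_of_nonneg_right (add_le_add (mul_le_of_le_one_right (by positivity) hs.2)
          (mul_le_mul_of_nonneg_right (mul_le_of_le_one_right (by positivity)
            (pow_le_one₀ hs.1 hs.2)) S0)) S0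
      · have e1 : pb (ph c v h) (sg (sγ u) (sφ u) f) y i j =
            Hm c v (u (ph c v h y)) (fun i => pd i h y) i j := by
          have k8 := fun i => pd_congr (z (ph c v h y) (by linarith [lo y])) i
          simp only [pb, jac_ph sh, sg, sγ, cf, k8, k5, mul_zero, sub_zero, Hm, eu]
        have e2 : √(2 * c * s + c ^ 2 * s ^ 2 * S) * v i * (√(2 * c * s + c ^ 2 * s ^ 2 * S) * v j) =
            (2 * c * s + c ^ 2 * s ^ 2 * S) * v i * v j := by
          linear_combination v i * v j * Real.mul_self_sqrt p0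
        rw [e1, e2]
        exact (k7 i j).le

end Vale.Agent.P366Y.B
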