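import Vale.Agent.P366Q.B.Lift
import Vale.Agent.P366Q.A.Cf
import Vale.Agent.P366Y.B.Glu
import Vale.Agent.P366Y.B.Bst

/-!
# P366Q, block B: the gluing
-/

open MeasureTheory Metric Filter Topology Set
open scoped ContDiff ENNReal
open Vale.Agent.P366 Vale.Agent.P366.Stmt Vale.Agent.P366Z
open Vale.Agent.P366Y.B (bp Md gm uu GL0 SOLV MID INP DEF PERT BP)
open Vale.Agent.P366Y.B.GluH (gm_in gm_ev gm_out sy_add ak_mono af_mono ak_add sm_le ex_eta k_far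
  k_near cl_far)

noncomputable section

namespace Vale.Agent.P366M.Y.B

open A (Sy Bk ck mg Tw xg xk xf tw_xg tw_xk tw_xf tw_of sm_xf)

namespace GluH

section E

variable {n : ℕ} {χ f : E n → ℝ} {y : E n} {A e : ℝ}

theorem ex_chi (n : ℕ) {R : ℝ} (hR : 0 < R) : ∃ (χ : E n → ℝ) (A : ℝ), Stmt.Smooth χ ∧ 1 ≤ A ∧
    (∀ y, ‖y‖ ≤ R → χ y = 0) ∧ (∀ y, 2 * R ≤ ‖y‖ → χ y = 1) ∧
    ∀ y i j, |χ y| ≤ A ∧ |Stmt.pd i χ y| ≤ A ∧ |Stmt.pd j (Stmt.pd i χ) y| ≤ A := by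
  have s : Stmt.Smooth fun y : E n => 1 - P366Z.cut R y := contDiff_const.sub (P366Z.sm_cut R)
  have z : ∀ y : E n, 2 * R ≤ ‖y‖ → 1 - P366Z.cut R y = 1 := fun y hy => by
    rw [P366Z.cut_zero hR hy, sub_zero]
  have h : ∀ i, ∃ K, 0 < K ∧ ∀ y, |Stmt.pd i (fun y : E n => 1 - P366Z.cut R y) y| ≤ K ∧
      ‖fderiv ℝ (Stmt.pd i fun y : E n => 1 - P366Z.cut R y) y‖ ≤ K := fun i =>
    P366Z.bdd_of_const (s.pd i) (R := 2 * R) (c := 0) fun y hy => by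
      rw [P366Z.pd_const_sub, P366Z.pd_cut_out hR hy, neg_zero]
  choose K K0 hK using h
  have k : ∀ i, K i ≤ 1 + ∑ i, K i := fun i => by
    linarith [Finset.single_le_sum (fun i _ => (K0 i).le) (Finset.mem_univ i)]
  have k0 : 0 ≤ ∑ i, K i := Finset.sum_nonneg fun i _ => (K0 i).le
  refine ⟨_, 1 + ∑ i, K i, s, by linarith, fun y hy => by rw [P366Z.cut_one hy, sub_self], z,
    fun y i j => ⟨abs_le.2 ⟨?_, ?_⟩, (hK i y).1.trans (k i),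
      (P366Z.abs_pd_le ((s.pd i).diff y) j).trans ((hK i y).2.trans (k i))⟩⟩
  · linarith [P366Z.cut_le_one R y]
  · linarith [P366Z.cut_nonneg R y]

theorem mulb {a b A B : ℝ} (ha : |a| ≤ A) (hb : |b| ≤ B) : |a * b| ≤ A * B := by
  rw [abs_mul]
  exact mul_le_mul ha hb (abs_nonneg _) ((abs_nonneg _).trans ha)

theorem mul1 (hχ : Stmt.Smooth χ) (hf : Stmt.Smooth f) {i : Fin n} (a0 : |χ y| ≤ A)
    (a1 : |Stmt.pd i χ y| ≤ A) (b0 : |f y| ≤ e) (b1 : |Stmt.pd i f y| ≤ e) :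
    |Stmt.pd i (fun z => χ z * f z) y| ≤ 2 * (A * e) := by
  rw [P366Z.pd_mul (hχ.diff y) (hf.diff y)]
  linarith [abs_add_le (Stmt.pd i χ y * f y) (χ y * Stmt.pd i f y), mulb a1 b0, mulb a0 b1]

theorem mul2 (hχ : Stmt.Smooth χ) (hf : Stmt.Smooth f)
    (a : ∀ i j, |χ y| ≤ A ∧ |Stmt.pd i χ y| ≤ A ∧ |Stmt.pd j (Stmt.pd i χ) y| ≤ A)
    (b : ∀ i j, |f y| ≤ e ∧ |Stmt.pd i f y| ≤ e ∧ |Stmt.pd j (Stmt.pd i f) y| ≤ e) (i j : Fin n) :
    |Stmt.pd j (Stmt.pd i fun z => χ z * f z) y| ≤ 4 * (A * e) := by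
  have e1 : (Stmt.pd i fun z => χ z * f z) = fun z => Stmt.pd i χ z * f z + χ z * Stmt.pd i f z :=
    funext fun z => P366Z.pd_mul (hχ.diff z) (hf.diff z) i
  rw [e1, P366Z.pd_add (((hχ.pd i).diff y).fun_mul (hf.diff y))
    ((hχ.diff y).fun_mul ((hf.pd i).diff y))]
  refine (abs_add_le _ _).trans ?_
  linarith [mul1 (hχ.pd i) hf (a i j).2.1 (a i j).2.2 (b i j).1 (b j j).2.1,
    mul1 hχ (hf.pd i) (a i j).1 (a j j).2.1 (b i j).2.1 (b i j).2.2]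

theorem qd_ev {G H H' : Field n} {U U' : E n → ℝ} (e : H =ᶠ[𝓝 y] H') (e' : U =ᶠ[𝓝 y] U') :
    P366Y.B.Qd G H U y = P366Y.B.Qd G H' U' y := by
  rw [P366Y.B.Qd, P366Y.B.Qd, P366Y.B.BstH.cov_ev EventuallyEq.rfl e,
    P366Y.B.BstH.mu_ev EventuallyEq.rfl e.eq_of_nhds, P366Y.A.Fin1.nsq_eq rfl e.eq_of_nhds,
    P366Z.lap_congr e', P366Z.gn_congr e', e'.eq_of_nhds]

end E

variable {n : ℕ} {M : Type} [Mfe n M] {G H : Fld n M} {U w : M → ℝ} {x : M}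

/-- the quantity that has to be nonpositive -/
def Qd (G H : Fld n M) (U : M → ℝ) (x : M) : ℝ :=
  U x * (covNorm G (mom G H) x - mu G H x) +
    2 * gam n * (lap G U x + √(normSq G H x) * gn G U x)

theorem dec_of (hn : 3 ≤ n) (hG : Met G) (hH : Sy H) (hU : Smooth U) (h0 : ∀ x, 0 < U x)
    (h : Qd G H U x ≤ 0) :
    covNorm (cf U G) (mom (cf U G) (ck U H)) x ≤ mu (cf U G) (ck U H) x := by
  refine (A.cf2 n M G H U hn hG hH hU h0 x).trans ?_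
  rw [((A.cf1 n M G H U hn hG hH hU h0).2.2 x).2.2.2.2]
  have u := h0 x
  refine mul_le_mul_of_nonneg_left ?_ (by positivity)
  unfold Qd at h
  rw [← sub_nonpos]
  refine le_trans (le_of_eq ?_) (div_nonpos_of_nonpos_of_nonneg h u.le)
  field_simp
  ring

theorem qd_tw {G' H' : Field n} {U' : E n → ℝ} (hG : Tw G G') (hH : Tw H H') (hU : Tw U U')
    (hx : R0 M + 1 / 2 < ‖px x‖) : Qd G H U x = P366Y.B.Qd G' H' U' (px x) := by
  rw [Qd, P366Y.B.Qd, hG.cm hH hx, hG.mu hH hx, hG.lap hU hx, hG.gn hU hx, hG.normSq hH hx.le,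
    hU.eq hx.le]

theorem qd_lin (hn : 3 ≤ n) {δ : ℝ} (hδ : 0 < δ) (hU : 0 ≤ U x)
    (e : U =ᶠ[𝓝 x] fun y => δ * w y + 1) (d : covNorm G (mom G H) x ≤ mu G H x)
    (f : lap G w x + √(normSq G H x) * gn G w x ≤ 0) : Qd G H U x ≤ 0 := by
  have γ1 := one_lt_gam hn
  rw [Qd, lap_congr e, gn_congr e, lap_affine,
    gn_of_pd (u' := w) (s := δ) fun i => by rw [pd_add_const, pd_const_mul], abs_of_pos hδ]
  have f1 := mul_nonpos_of_nonneg_of_nonpos hU (sub_nonpos.2 d)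
  have f2 := mul_nonpos_of_nonneg_of_nonpos (by positivity : 0 ≤ 2 * gam n * δ) f
  linarith

end GluH

open GluH

theorem glu_of (h0 : GL0) (hS : SOLV) (hMi : MID) (hI : INP) (hD : DEF) (hP : PERT) (hW : WK2)
    (hb : BP) : GLU := by
  intro n M _ g K g₂ K₂ F q C R m m₂ P hB hM hM₂ hq hm e e0 r₀
  have hn := hB.dim
  have hn' : (3 : ℝ) ≤ n := by exact_mod_cast hn
  have q1 := hB.q0
  have q0 : 0 < q := by linarith
  have C0 := hB.C0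
  have R2 := hB.R1
  have R8 := R0_ge M
  have R1 : 1 ≤ R := by linarith
  have γ1 := one_lt_gam hn
  obtain ⟨q', p0, p1, p2, p3⟩ : ∃ q' : ℝ, 0 < q' ∧ q' < q ∧ q' < 1 ∧ n + q' < 2 + 2 * q := by
    have a1 := min_le_left (min q 1) (2 + 2 * q - n)
    have a2 := min_le_right (min q 1) (2 + 2 * q - n)
    have a3 : 0 < min (min q 1) (2 + 2 * q - n) := lt_min (lt_min q0 one_pos) (by linarith)
    exact ⟨min (min q 1) (2 + 2 * q - n) / 2, by linarith, by linarith [min_le_left q 1],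
      by linarith [min_le_right q 1], by linarith⟩
  obtain ⟨χ, A, sχ, A1, χ0, χ1, χ2⟩ := ex_chi n (show 0 < R by linarith)
  obtain ⟨C', CC, h0⟩ := h0 n q C C0
  obtain ⟨B, B0, s, s0, ρ₀, hS⟩ := hS n _ _ g₂ K₂ q q' C R m m₂ P hn q0 hq p0 p2 C0 R1 hM hM₂ hm
  obtain ⟨Ld, Ld0, R₂, R21, hD⟩ := hD n q (C' + B) q0 (by linarith)
  obtain ⟨R', r5, r6⟩ : ∃ R', 2 * R + 1 ≤ R' ∧ R₂ ≤ R' := ⟨_, le_max_left _ _, le_max_right _ _⟩
  obtain ⟨N, N1, hP⟩ := hP n _ _ (fun _ => 0) R' hM.met hM.sy contDiff_const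
  obtain ⟨N₀, hN⟩ := (isCompact_px M R).exists_bound_of_continuousOn
    (Y.A.Asm.cont_k hB.met hB.sy).continuousOn
  obtain ⟨N', n1, n2⟩ : ∃ N', N ≤ N' ∧ N₀ ≤ N' := ⟨_, le_max_left _ _, le_max_right _ _⟩
  obtain ⟨C₂, c1, c2, c3⟩ : ∃ C₂ : ℝ, Ld * 2 ^ (q + 1) ≤ C₂ ∧ N' * (1 + R') ^ (q + 1) ≤ C₂ ∧
      C' ≤ C₂ := ⟨max (max _ _) _, (le_max_left _ _).trans (le_max_left _ _),
        (le_max_right _ _).trans (le_max_left _ _), le_max_right _ _⟩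
  obtain ⟨L, L0, c, c0, ρ₁, hW⟩ := hW n M g K F q C R m q' C₂ hB p0 p1 (by linarith)
  obtain ⟨κ, -, Ab, -, hb⟩ := hb n hn
  obtain ⟨ε, ε0, ε1, εe⟩ : ∃ ε > (0 : ℝ), ε ≤ 1 ∧ 4 * ε ≤ e :=
    ⟨min 1 (e / 4), by positivity, min_le_left _ _, by linarith [min_le_right 1 (e / 4)]⟩
  obtain ⟨η, η0, η1, hη⟩ := ex_eta (2 * bb n) ε0
  obtain ⟨δ, δ0, δ1, δ2⟩ : ∃ δ > (0 : ℝ), 4 * gam n * δ * L ≤ s ∧ δ * L ≤ η / 2 := by
    refine ⟨min (s / (4 * gam n * L)) (η / 2 / L), by positivity, ?_,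
      (le_div_iff₀ L0).1 (min_le_right _ _)⟩
    have := (le_div_iff₀ (by positivity)).1 (min_le_left (s / (4 * gam n * L)) (η / 2 / L))
    linarith
  obtain ⟨R₁, R11, τ, τ0, hMi⟩ := hMi n q q' (C' + B) B s L c δ hn p0 p1 p3 (by linarith) B0 L0 c0
    δ0 δ1
  obtain ⟨R₃, hR₃⟩ := P366Y.A.FinA.ev_small q0 C' ε0
  obtain ⟨r, r1, r2, r3, r4⟩ : ∃ r : ℝ, r₀ ≤ r ∧ R₁ ≤ r ∧ R' ≤ r ∧ R₃ ≤ r :=
    ⟨max (max r₀ R₁) (max R' R₃), (le_max_left _ _).trans (le_max_left _ _),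
      (le_max_right _ _).trans (le_max_left _ _), (le_max_left _ _).trans (le_max_right _ _),
      (le_max_right _ _).trans (le_max_right _ _)⟩
  have rR : R ≤ r := by linarith
  obtain ⟨e₁, ⟨e10, e11⟩, hI⟩ := hI n _ _ (fun _ => 0) r (c * (1 + r) ^ (-(n + q'))) δ hn hM.met
    hM.sy contDiff_const (mul_pos c0 (Real.rpow_pos_of_pos (by linarith) _)) δ0
  obtain ⟨e₂, e20, e21, e22⟩ : ∃ e₂ > (0 : ℝ), 4 * (A * e₂) ≤ e₁ ∧ A * e₂ ≤ η / 2 := by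
    have A0 : 0 < A := by linarith
    refine ⟨min (e₁ / 4) (η / 2) / A, by positivity, ?_, ?_⟩ <;> rw [mul_div_cancel₀ _ A0.ne']
    · linarith [min_le_left (e₁ / 4) (η / 2)]
    · exact min_le_right _ _
  have e23 : 0 < A * e₂ := by positivity
  obtain ⟨ρ₂, hρ₂⟩ := P366Y.A.FinA.ev_small q0 B e20
  obtain ⟨ρ, a0, a1, a2, a3⟩ : ∃ ρ : ℝ, ρ₀ ≤ ρ ∧ ρ₁ ≤ ρ ∧ ρ₂ ≤ ρ ∧ r + 1 ≤ ρ :=
    ⟨max (max ρ₀ ρ₁) (max ρ₂ (r + 1)), (le_max_left _ _).trans (le_max_left _ _),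
      (le_max_right _ _).trans (le_max_left _ _), (le_max_left _ _).trans (le_max_right _ _),
      (le_max_right _ _).trans (le_max_right _ _)⟩
  have ρ1 : 1 ≤ ρ := by linarith
  have ρ0 : 0 < ρ := by linarith
  have b1 := hρ₂ ρ a2
  obtain ⟨T₀, hS⟩ := hS ρ a0 τ τ0
  obtain ⟨T, t0, t1⟩ : ∃ T : ℝ, T₀ ≤ T ∧ 2 * ρ ≤ T := ⟨max _ _, le_max_left _ _, le_max_right _ _⟩
  obtain ⟨w₀, Z, hS⟩ := hS T t0
  obtain ⟨g1, g2, g3, g4⟩ := h0 _ _ g₂ K₂ R ρ hM.met hM₂.met hM.sy hM₂.sy hM.af hM₂.af hM.ak hM₂.ak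
    (by linarith) (by linarith)
  obtain ⟨Z₁, hZ⟩ : ∃ Z₁ : Field n, Z₁ = fun y i j => χ y * Z y i j := ⟨_, rfl⟩
  obtain ⟨w₁, hw⟩ : ∃ w₁ : E n → ℝ, w₁ = fun y => χ y * w₀ y := ⟨_, rfl⟩
  have sZ : P366Y.A.Sy Z₁ := hZ ▸ ⟨fun i j => ContDiff.mul sχ (hS.sy.sm i j),
    fun y i j => by simp only [hS.sy.sy y i j]⟩
  have sw : Stmt.Smooth w₁ := hw ▸ ContDiff.mul sχ hS.sm
  have Z0 : ∀ y, χ y = 0 ∨ Z y = 0 → Z₁ y = 0 := fun y hy => by
    funext i j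
    rcases hy with hy | hy <;> simp [hZ, hy]
  have Z1 : ∀ y, 2 * R ≤ ‖y‖ → (gm ρ (xk K) K₂ + Z₁) y = (gm ρ (xk K) K₂ + Z) y := fun y hy => by
    funext i j
    simp only [hZ, Pi.add_apply, χ1 y hy, one_mul]
  obtain ⟨G, pG⟩ := patch (A := g) (B := gm ρ (xg g) g₂) (T := R0 M + 1 / 2) (T₁ := ρ)
    (by linarith) (by linarith) fun x h1 h2 => by rw [gm_in h2, (tw_xg g).eq h1]
  obtain ⟨H, pH⟩ := patch (A := K) (B := gm ρ (xk K) K₂ + Z₁) (T := R0 M + 1 / 2) (T₁ := R)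
    (by linarith) (by linarith) fun x h1 h2 => by
      rw [Pi.add_apply, gm_in (by linarith), (tw_xk K).eq h1, Z0 _ (Or.inl (χ0 _ h2)), add_zero]
  have mG := pG.met hB.met g1
  have sH := pH.sy hB.sy (sy_add g2 sZ)
  obtain ⟨w, w1, w2, w3, w4, w5, w6⟩ := hW ρ a1 T t1 G mG ((pG.tw.af (by linarith)).2
    (af_mono g3 c3)) fun x hx => pG.ev_in hx
  obtain ⟨hb1, hb2, -⟩ := hb ρ ρ1
  have hb0 := (hb1 q hq).zero
  have H2 := ak_add g2 hS.sy g4 R1 q0 ρ0.le B0.le hS.oz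
  have CB : C ≤ C' + B := by linarith
  obtain ⟨U, hU⟩ : ∃ U : M → ℝ, U = fun x => 1 + w₁ (px x) + δ * w x := ⟨_, rfl⟩
  have tw := tw_xf 0 w
  have tU : Tw U (uu δ w₁ (xf 0 w)) := tw_of fun x hx => by rw [uu, tw.eq hx, hU]
  have U1 : Smooth U := hU ▸ CD.add (CD.add cd_const (smooth_px sw)) (CD.mul cd_const w1)
  obtain ⟨i₀⟩ : Nonempty (Fin n) := ⟨⟨0, by omega⟩⟩
  have z0 : ∀ y i j, |w₀ y| ≤ e₂ ∧ |Stmt.pd i w₀ y| ≤ e₂ ∧ |Stmt.pd j (Stmt.pd i w₀) y| ≤ e₂ :=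
    fun y i j => ⟨(hS.o2 y i j).1.trans (sm_le ρ1 q0 le_rfl B0.le b1),
      (hS.o2 y i j).2.1.trans (sm_le ρ1 q0 (by linarith) B0.le b1),
      (hS.o2 y i j).2.2.trans (sm_le ρ1 q0 (by linarith) B0.le b1)⟩
  have U2 : ∀ x, |U x - 1| ≤ η := fun x => by
    have h1 : |w₁ (px x)| ≤ A * e₂ := hw ▸ mulb (χ2 _ i₀ i₀).1 (z0 _ i₀ i₀).1
    have h2 : |δ * w x| ≤ δ * L := mulb (abs_of_pos δ0).le (w2 x)
    simp only [hU, add_assoc, add_sub_cancel_left]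
    linarith [abs_add_le (w₁ (px x)) (δ * w x)]
  have U3 : ∀ x, 1 / 2 ≤ U x := fun x => by linarith [(abs_le.1 (U2 x)).1]
  have U4 : ∀ x, U x ≤ 2 := fun x => by linarith [(abs_le.1 (U2 x)).2]
  have U0 : ∀ x, 0 < U x := fun x => by linarith [U3 x]
  have z1 : ∀ y i j k, |Z₁ y i j| ≤ e₁ ∧ |Stmt.pd k (fun z => Z₁ z i j) y| ≤ e₁ :=
    fun y i j k => by
      have k1 := (hS.oz y i j k).1.trans (sm_le ρ1 q0 (by linarith) B0.le b1)
      have k2 := (hS.oz y i j k).2.trans (sm_le ρ1 q0 (by linarith) B0.le b1)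
      rw [hZ]
      exact ⟨(mulb (χ2 y k k).1 k1).trans (by linarith),
        (mul1 sχ (hS.sy.sm i j) (χ2 y k k).1 (χ2 y k k).2.1 k1 k2).trans (by linarith)⟩
  have z2 : ∀ y i j, |Stmt.pd i w₁ y| ≤ e₁ ∧ |Stmt.pd j (Stmt.pd i w₁) y| ≤ e₁ := fun y i j => by
    rw [hw]
    exact ⟨(mul1 sχ hS.sm (χ2 y i i).1 (χ2 y i i).2.1 (z0 y i i).1 (z0 y i i).2.1).trans
      (by linarith), (mul2 sχ hS.sm (χ2 y) (z0 y) i j).trans e21⟩
  have ev : ∀ y : E n, ‖y‖ < ρ → gm ρ (xk K) K₂ + Z₁ =ᶠ[𝓝 y] xk K + Z₁ := fun y hy =>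
    (gm_ev (g := xk K) (g₂ := K₂) hy).mono fun z hz => by simp only [Pi.add_apply, hz]
  have kk : ∀ x, √(normSq G H x) ≤ C₂ * (1 + ‖px x‖) ^ (-(q + 1)) := fun x => by
    rcases le_total ‖px x‖ R' with hx | hx
    · refine le_trans ?_ ((k_near (M := N') (by linarith) hx (by linarith)).trans
        (mul_le_mul_of_nonneg_right c2 (by positivity)))
      rcases le_total ‖px x‖ R with hx' | hx'
      · rw [Y.A.Fin1.nsq_eq (pG.ins x (by linarith)) (pH.ins x hx')]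
        exact ((le_abs_self _).trans (hN x hx')).trans n2
      · rw [pG.tw.normSq pH.tw (by linarith),
          P366Y.A.Fin1.nsq_eq (gm_in (by linarith)) (ev _ (by linarith)).eq_of_nhds]
        exact (hP Z₁ w₁ e₁ _ sZ sw e10.le e11 hx (z1 _) (z2 _)).2.2.1.trans n1
    · have x1 : R ≤ ‖px x‖ := by linarith
      rw [pG.tw.normSq pH.tw (by linarith), P366Y.A.Fin1.nsq_eq rfl (Z1 _ (by linarith))]
      exact ((hD _ _ g₂ K₂ Z R ρ _ hM.met hM₂.met g1 hM.sy hM₂.sy hS.sy (af_mono hM.af CB)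
        (af_mono hM₂.af CB) (af_mono g3 (by linarith)) (ak_mono hM.ak CB) (ak_mono hM₂.ak CB) H2 x1
        (r6.trans hx) (hM.dec _ x1) (hM₂.dec _ x1)).2.trans
          (k_far Ld0.le (by linarith) (by linarith))).trans
            (mul_le_mul_of_nonneg_right c1 (by positivity))
  have w7 := fun x hx => w5 x _ hx (Real.sqrt_nonneg _) (kk x)
  have w8 : ∀ x, R ≤ ‖px x‖ → lap G w x + √(normSq G H x) * gn G w x =
      P366Z.lap (gm ρ (xg g) g₂) (xf 0 w) (px x) + √(Stmt.normSq (gm ρ (xg g) g₂)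
        (gm ρ (xk K) K₂ + Z₁) (px x)) * P366Z.gn (gm ρ (xg g) g₂) (xf 0 w) (px x) :=
    fun x hx => by
      rw [pG.tw.lap tw (by linarith), pG.tw.gn tw (by linarith), pG.tw.normSq pH.tw (by linarith)]
  have eU : ∀ x, ‖px x‖ < R ∨ T < ‖px x‖ → U =ᶠ[𝓝 x] fun y => δ * w y + 1 := fun x hx => by
    rcases hx with hx | hx
    · filter_upwards [ev_px_lt hx] with y hy
      simp only [hU, hw, χ0 _ hy.le]
      ring
    · filter_upwards [ev_lt_px hx] with y hy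
      simp only [hU, hw, (hS.out _ hy.le).1]
      ring
  have Ho : ∀ x, T ≤ ‖px x‖ → G x = g₂ (px x) ∧ H x = K₂ (px x) := fun x hx => by
    rw [pG.out x (by linarith), pH.out x (by linarith), Pi.add_apply, gm_out ρ0 (by linarith),
      gm_out ρ0 (by linarith), Z0 _ (Or.inr (hS.out _ hx).2), add_zero]
    exact ⟨rfl, rfl⟩
  obtain ⟨G1, G2, -⟩ := Y.A.cf1 n M _ _ _ hn mG sH U1 U0
  refine ⟨_, _, r, 2 * T, r1, by linarith, G1, G2, fun x hx => dec_of hn mG sH U1 U0 ?_,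
    fun x hx => ?_, fun x hx => ?_, fun x hx => ⟨_, (hη _ (U2 x)).trans (by linarith),
      fun i j => by rw [cf, pG.ins x (by linarith)]⟩, fun x hx i j => ?_⟩
  · rcases lt_or_ge ‖px x‖ R with h | h
    · refine qd_lin hn δ0 (U0 x).le (eU x (Or.inl h)) ?_ ((w7 x hx).1.trans ?_)
      · rw [Y.A.Fin1.cov_ev (pG.ev_in (by linarith)) (pH.ev_in h),
          Y.A.Fin1.mu_ev (pG.ev_in (by linarith)) (pH.ins x h.le)]
        exact hB.dec x hx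
      · rw [hb0 _ (Or.inl (by linarith)), mul_zero]
    have u3 := U3 x
    have u4 := U4 x
    rw [← tU.eq (by linarith)] at u3 u4
    rcases le_total ‖px x‖ r with h' | h'
    · rw [qd_tw pG.tw pH.tw tU (by linarith)]
      refine (hI _ _ Z₁ w₁ _ _ g1 sZ sw (sm_xf 0 w1) h' (gm_ev (by linarith)) (ev _ (by linarith))
        (z1 _) (z2 _) u3 u4).1 (hM.dec _ h) ?_
      rw [← w8 x h]
      refine ((w7 x hx).2 (by linarith)).trans ?_
      rw [hb0 _ (Or.inl (by linarith)), mul_zero, zero_sub]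
      exact neg_le_neg (mul_le_mul_of_nonneg_left (Real.rpow_le_rpow_of_nonpos (by positivity)
        (by linarith) (by linarith)) c0.le)
    rcases le_or_gt ‖px x‖ T with h'' | h''
    · have o := ev_lt_norm (show 2 * R < ‖px x‖ by linarith)
      have o1 : uu δ w₁ (xf 0 w) =ᶠ[𝓝 (px x)] uu δ w₀ (xf 0 w) :=
        o.mono fun y hy => by simp only [uu, hw, χ1 y hy.le, one_mul]
      have f := (w7 x hx).2 h''
      rw [w8 x h, P366Y.A.Fin1.nsq_eq rfl (Z1 _ (by linarith))] at f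
      rw [o1.eq_of_nhds] at u3 u4
      rw [qd_tw pG.tw pH.tw tU (by linarith), qd_ev (o.mono fun y hy => Z1 y hy.le) o1]
      refine hMi _ _ g₂ K₂ Z w₀ _ R ρ T _ hM.met hM₂.met g1 hM.sy hM₂.sy (af_mono hM.af CB)
        (af_mono hM₂.af CB) (af_mono g3 (by linarith)) (ak_mono hM.ak CB) (ak_mono hM₂.ak CB) H2 hS
        (sm_xf 0 w1) ρ0 h (r2.trans h') (hM.dec _ h) (hM₂.dec _ h) (hb2 _) ?_ ?_ u3 u4 f
      · rw [tw.eq (by linarith)]
        exact w2 x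
      · rw [tw.eq (by linarith)]
        exact w3 x
    · refine qd_lin hn δ0 (U0 x).le (eU x (Or.inr h'')) (dec_out (by linarith)
        ((ev_lt_px h'').mono fun y hy => (Ho y hy.le).1)
        ((ev_lt_px h'').mono fun y hy => (Ho y hy.le).2) (hM₂.dec _ h)) ((w7 x hx).1.trans ?_)
      rw [hb0 _ (Or.inr (by linarith)), mul_zero]
  · have h : ‖px x‖ < R := not_le.1 fun h => by linarith [hB.far x h]
    rw [Y.A.cf3 n M _ _ _ F x hn mG sH U1 U0 hB.ext.1 (Y.A.Asm.gn_ne mG (hB.ext.2.1 x hx)),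
      Y.A.Fin1.th_ev (pG.ev_in (by linarith)) (pH.ins x h.le), ip_congr (eU x (Or.inl h))
        EventuallyEq.rfl, ip_of_pd (u' := w) (v' := F) (s := δ) (t := 1)
          (fun i => by rw [pd_add_const, pd_const_mul]) (fun i => (one_mul _).symm),
      ip_of_eq (pG.ins x (by linarith))]
    refine mul_nonpos_of_nonneg_of_nonpos (Real.rpow_nonneg (U0 x).le _) (add_nonpos (hB.trap x hx)
      (div_nonpos_of_nonpos_of_nonneg (mul_nonpos_of_nonneg_of_nonpos (by positivity)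
        (mul_nonpos_of_nonneg_of_nonpos (by positivity) (by linarith [w6 x hx])))
          (mul_nonneg (U0 x).le (gn_nonneg _ _ _))))
  · have e3 : U x = 1 := by
      rw [(eU x (Or.inr (by linarith))).eq_of_nhds, w4 x hx]
      ring
    obtain ⟨k1, k2⟩ := Ho x (by linarith)
    constructor
    · funext i j
      rw [cf, e3, Real.one_rpow, one_mul, k1]
    · funext i j
      rw [ck, e3, Real.one_rpow, one_mul, k2]
  · have a := hR₃ _ (r4.trans hx)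
    have k1 := (g3 _ (rR.trans hx) i j i i).1.trans a
    have k2 := (af_mono hM.af CC _ (rR.trans hx) i j i i).1.trans a
    rw [← pG.out x (by linarith)] at k1
    rw [(tw_xg g).eq (by linarith)] at k2
    refine ⟨(cl_far (hη _ (U2 x)) k1 ?_ ε1).trans εe, k2.trans (by linarith)⟩
    unfold P366Z.eu
    split_ifs <;> simp

end Vale.Agent.P366M.Y.B
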