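import Vale.Agent.P366Q.B.Top
import Vale.Agent.P366Q.A.Xt
import Vale.Agent.P366M.End3
import Vale.Agent.P366Y.B.Posa

/-!
# P366Q, block B: the minimal area is positive
-/

open MeasureTheory Metric Filter Topology Set
open scoped ContDiff ENNReal
open Vale.Agent.P366 Vale.Agent.P366.Stmt Vale.Agent.P366Z

noncomputable section

namespace Vale.Agent.P366M.Y.B

open A (Bk THK xg tw_xg)

namespace Posa

variable {n : ℕ} {M : Type} [Mfe n M] {F : M → ℝ} {R : ℝ} {x : M}

theorem dv_zero {g : Fld n M} {f : M → ℝ} (e : f =ᶠ[𝓝 x] fun _ => 0) (X : Fin n → M → ℝ) :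
    dv g (fun i y => f y * X i y) x = 0 := by
  rw [dv_congr (Y := fun i y => 0 * X i y) fun i => e.mono fun y hy => by simp only [hy],
    dv_const_mul, zero_mul]

theorem dv_gr {g : Fld n M} {f u : M → ℝ} (hg : Met g) (hf : Smooth f) (hu : Smooth u) (x : M) :
    dv g (fun i y => f y * gr g u i y) x = f x * lap g u x + ip g f u x := by
  rw [hg.dv_smul (hf.diff x) (hg.diff_gr (hu.c2 x)), lap_eq_dv g (hu.c2 x), ip_eq_gr]

theorem st_der (t : ℝ) : HasDerivAt Real.smoothTransition (deriv Real.smoothTransition t) t :=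
  (Real.smoothTransition.contDiff (n := 1)).differentiable one_ne_zero t |>.hasDerivAt

/-- a bounded field with positive divergence in the end -/
theorem ex_V (M : Type) [Mfe n M] (hn : 3 ≤ n) : ∃ V : Fin n → M → ℝ, CV ∞ V ∧
    (∀ x, 0 ≤ dv bg V x) ∧ (∀ x, R0 M + 2 ≤ ‖px x‖ → 1 / (1 + ‖px x‖ ^ 2) ≤ dv bg V x) ∧
    ∀ x, R0 M ≤ ‖px x‖ → ∀ i, |V i x| ≤ 1 := by
  have mb : Met (bg : Fld n M) := bg_met
  have h3 : (3 : ℝ) ≤ n := by exact_mod_cast hn
  have R8 := R0_ge M
  obtain ⟨φ, hφ⟩ : ∃ φ : ℝ → ℝ, φ = fun t => Real.smoothTransition (t - (R0 M + 1) ^ 2) / (1 + t) :=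
    ⟨_, rfl⟩
  have ss : Smooth fun y : M => ‖px y‖ ^ 2 := contDiff_normSq
  have sf : Smooth fun y : M => φ (‖px y‖ ^ 2) := hφ ▸ CD.div
    (Real.smoothTransition.contDiff.compM (CD.sub ss cd_const)) (CD.add cd_const ss)
      fun y => by positivity
  have key : ∀ x : M, 2 * φ (‖px x‖ ^ 2) ≤
      dv bg (fun i y => φ (‖px y‖ ^ 2) * gr bg (fun y => ‖px y‖ ^ 2) i y) x := fun x => by
    rcases lt_or_ge ‖px x‖ (R0 M + 1) with h | h
    · have e : (fun y : M => φ (‖px y‖ ^ 2)) =ᶠ[𝓝 x] fun _ => 0 := (ev_px_lt h).mono fun y hy => by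
        simp only [hφ]
        rw [Real.smoothTransition.zero_of_nonpos (sub_nonpos.2
          (pow_le_pow_left₀ (norm_nonneg _) hy.le 2)), zero_div]
      rw [dv_zero e, e.eq_of_nhds, mul_zero]
    · have p : 0 < 1 + ‖px x‖ ^ 2 := by positivity
      have d := (((st_der (‖px x‖ ^ 2 - (R0 M + 1) ^ 2)).comp_sub_const _ _).div
        ((hasDerivAt_id' (‖px x‖ ^ 2)).const_add 1) p.ne')
      have d' : HasDerivAt φ _ (‖px x‖ ^ 2) := d.congr_of_eventuallyEq (.of_eq hφ)
      rw [dv_gr mb sf ss, lap_of_ev (bg_ev (by linarith)), lap_eu_normSq (by linarith),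
        ip_comp_left (u := fun y : M => ‖px y‖ ^ 2) d' (ss.diff x),
        ip_of_eq (bg_far (by linarith)), ip_eu_normSq (by linarith), hφ]
      have a0 := Real.smoothTransition.nonneg (‖px x‖ ^ 2 - (R0 M + 1) ^ 2)
      have a1 : 0 ≤ deriv Real.smoothTransition (‖px x‖ ^ 2 - (R0 M + 1) ^ 2) :=
        Real.smoothTransition.monotone.deriv_nonneg
      have t0 : 0 ≤ ‖px x‖ ^ 2 := by positivity
      beta_reduce
      generalize ‖px x‖ ^ 2 = t at *
      generalize Real.smoothTransition (t - (R0 M + 1) ^ 2) = a at *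
      generalize deriv Real.smoothTransition (t - (R0 M + 1) ^ 2) = b at *
      rw [← sub_nonneg]
      have e : a / (1 + t) * (2 * n) + (b * (1 + t) - a * 1) / (1 + t) ^ 2 * (4 * t) -
          2 * (a / (1 + t)) = (a * ((2 * n - 6) * (1 + t) + 4) + 4 * t * b * (1 + t)) /
            (1 + t) ^ 2 := by
        field_simp
        ring
      rw [e]
      have : 0 ≤ 2 * (n : ℝ) - 6 := by linarith
      positivity
  have f0 : ∀ x : M, 0 ≤ φ (‖px x‖ ^ 2) := fun x => by
    rw [hφ]
    exact div_nonneg (Real.smoothTransition.nonneg _) (by positivity)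
  refine ⟨_, CV.smul sf (mb.sm_gr ss), fun x => le_trans (by linarith [f0 x]) (key x),
    fun x hx => le_trans ?_ (key x), fun x hx i => ?_⟩
  · have : φ (‖px x‖ ^ 2) = 1 / (1 + ‖px x‖ ^ 2) := by
      simp only [hφ]
      rw [Real.smoothTransition.one_of_one_le (by nlinarith)]
    linarith [f0 x]
  · have p : 0 < 1 + ‖px x‖ ^ 2 := by positivity
    have k : |px x i| ≤ ‖px x‖ := by simpa using PiLp.norm_apply_le (px x) i
    rw [gr_of_eq (bg_far hx), gr_eu, pd_normSq hx, abs_mul, abs_of_nonneg (f0 x), abs_mul, abs_two,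
      hφ, div_mul_eq_mul_div, div_le_one p]
    refine (mul_le_of_le_one_left (by positivity) (Real.smoothTransition.le_one _)).trans ?_
    nlinarith [sq_nonneg (‖px x‖ - 1)]

/-- a bounded field with nonpositive divergence -/
theorem ex_Y (hT : THK) (hn : 3 ≤ n) (hF : IsExt F) (hR : R0 M + 2 ≤ R)
    (far : ∀ x, R ≤ ‖px x‖ → 1 ≤ F x) (deep : ∃ x, F x < 0) (hz : ∃ x, F x = 0) :
    ∃ Y : Fin n → M → ℝ, CV ∞ Y ∧ (∀ x, dv bg Y x ≤ 0) ∧ (∃ x, F x < 0 ∧ dv bg Y x < 0) ∧
      ∃ B, ∀ x, 2 * R < ‖px x‖ → ∀ i, |Y i x| ≤ B := by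
  have mb : Met (bg : Fld n M) := bg_met
  have R8 := R0_ge M
  have r0 : 0 < R := by linarith
  obtain ⟨V, sV, v0, v1, v2⟩ := ex_V M hn
  obtain ⟨θ, sθ, hθ, hθ'⟩ := hT n M bg F R 0 hn mb hF le_rfl
  simp only [zero_mul, add_zero] at hθ
  obtain ⟨s, s0, hs⟩ := ((isCompact_px M R).inter_right ((isClosed_le continuous_const
      (mb.sm_lap sθ).cont (f := fun _ => 0)).union (isClosed_le continuous_const
      (mb.sm_ip sθ hF.1).cont (f := fun _ => 0)))).exists_forall_le' hF.1.cont.abs.continuousOn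
    (a := 0) fun x hx => abs_pos.2 fun h0 => by
      rcases hx.2 with h | h
      · exact (hθ x h0.ge hx.1).not_ge h
      · exact (hθ' x h0).not_ge h
  have inn : ∀ x, F x < 0 → ‖px x‖ < R := fun x hx => not_le.1 fun h => by linarith [far x h]
  have col : ∀ x, F x < 0 → -s < F x → lap bg θ x < 0 ∧ ip bg θ F x < 0 := fun x h1 h2 => by
    by_contra h
    rw [not_and_or, not_lt, not_lt] at h
    have := hs x ⟨(inn x h1).le, h⟩
    rw [abs_of_neg h1] at this
    linarith
  obtain ⟨z, hz'⟩ : ∃ z : M → ℝ, z = fun x => cut R x * θ x := ⟨_, rfl⟩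
  have sz : Smooth z := hz' ▸ CD.mul (sm_cut R) sθ
  have z1 : ∀ x, 2 * R < ‖px x‖ → z =ᶠ[𝓝 x] fun _ => 0 := fun x hx =>
    (ev_lt_px hx).mono fun y hy => by simp [hz', cut_zero r0 hy.le]
  have z2 : ∀ x, ‖px x‖ < R → z =ᶠ[𝓝 x] θ := fun x hx =>
    (ev_px_lt hx).mono fun y hy => by simp [hz', cut_one hy.le]
  obtain ⟨N, hN⟩ := (isCompact_px M (2 * R)).exists_bound_of_continuousOn
    (mb.sm_lap sz).cont.continuousOn
  obtain ⟨χ, hχ⟩ : ∃ χ : ℝ → ℝ, χ = fun t => Real.smoothTransition (4 / s * t + 2) := ⟨_, rfl⟩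
  have sχ : Smooth fun x => χ (F x) := hχ ▸ Real.smoothTransition.contDiff.compM
    (CD.add (CD.mul cd_const hF.1) cd_const)
  have e4 : 4 / s * s = 4 := div_mul_cancel₀ _ s0.ne'
  have s4 : 0 < 4 / s := by positivity
  have y1 : ∀ x, -(s / 4) < F x → dv bg (fun i y => χ (F y) * gr bg z i y) x = lap bg z x :=
    fun x hx => by
      rw [lap_eq_dv bg (sz.c2 x)]
      refine dv_congr fun i => ((hF.1.cont.tendsto x).eventually (lt_mem_nhds hx)).mono
        fun y hy => ?_
      simp only [hχ]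
      rw [Real.smoothTransition.one_of_one_le (by nlinarith), one_mul]
  have y2 : ∀ x, F x < 0 → dv bg (fun i y => χ (F y) * gr bg z i y) x ≤ 0 := fun x hx => by
    rcases lt_or_ge (F x) (-(s / 2)) with h | h
    · refine (dv_zero (((hF.1.cont.tendsto x).eventually (gt_mem_nhds h)).mono fun y hy => ?_) _).le
      simp only [hχ]
      exact Real.smoothTransition.zero_of_nonpos (by nlinarith)
    · obtain ⟨k1, k2⟩ := col x hx (by linarith)
      have d := (st_der (4 / s * F x + 2)).comp (F x)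
        (((hasDerivAt_id' (F x)).const_mul (4 / s)).add_const 2)
      have d' : HasDerivAt χ _ (F x) := d.congr_of_eventuallyEq (.of_eq hχ)
      have a1 : 0 ≤ deriv Real.smoothTransition (4 / s * F x + 2) :=
        Real.smoothTransition.monotone.deriv_nonneg
      rw [dv_gr mb sχ sz, ip_comp_left d' (hF.1.diff x), lap_congr (z2 x (inn x hx)),
        ip_congr EventuallyEq.rfl (z2 x (inn x hx)), mb.ip_sy]
      refine add_nonpos (mul_nonpos_of_nonneg_of_nonpos ?_ k1.le)
        (mul_nonpos_of_nonneg_of_nonpos (by positivity) k2.le)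
      rw [hχ]
      exact Real.smoothTransition.nonneg _
  have s1 : CV ∞ fun i y => χ (F y) * gr bg z i y := CV.smul sχ (mb.sm_gr sz)
  obtain ⟨A, hA⟩ : ∃ A, A = |N| * (1 + (2 * R) ^ 2) := ⟨_, rfl⟩
  have A0 : 0 ≤ A := hA ▸ by positivity
  have s2 : CV ∞ fun i y => A * V i y := CV.smul cd_const sV
  have e : ∀ x, dv bg (fun i y => χ (F y) * gr bg z i y - A * V i y) x =
      dv bg (fun i y => χ (F y) * gr bg z i y) x - A * dv bg V x := fun x => by
    rw [mb.dv_sub (s1.dv (by simp) x) (s2.dv (by simp) x), dv_const_mul]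
  refine ⟨_, s1.sub s2, fun x => ?_, ?_, A, fun x hx i => ?_⟩
  · have k := mul_nonneg A0 (v0 x)
    rw [e]
    rcases lt_or_ge (F x) 0 with h | h
    · linarith [y2 x h]
    rw [y1 x (by linarith)]
    rcases lt_or_ge ‖px x‖ R with h' | h'
    · rw [lap_congr (z2 x h')]
      linarith [hθ x h h'.le]
    rcases le_or_gt ‖px x‖ (2 * R) with h'' | h''
    · have k1 := (le_abs_self _).trans ((hN x h'').trans (le_abs_self N))
      have k2 := mul_le_mul_of_nonneg_left ((one_div_le_one_div_of_le (by positivity)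
        (add_le_add_right (pow_le_pow_left₀ (norm_nonneg _) h'' 2) 1)).trans
          (v1 x (by linarith))) A0
      rw [mul_one_div, hA, mul_div_cancel_right₀ _ (by positivity), ← hA] at k2
      linarith
    · rw [lap_congr (z1 x h''), lap_const]
      linarith
  · obtain ⟨a, ha⟩ := deep
    obtain ⟨b, hb⟩ := hz
    obtain ⟨x, hx⟩ := intermediate_value_univ a b hF.1.cont (show max (F a) (-(s / 8)) ∈ _ from
      ⟨le_max_left _ _, hb ▸ max_le ha.le (by linarith)⟩)
    have k1 : F x < 0 := hx ▸ max_lt ha (by linarith)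
    have k2 : -(s / 8) ≤ F x := hx ▸ le_max_right _ _
    refine ⟨x, k1, ?_⟩
    rw [e, y1 x (by linarith), lap_congr (z2 x (inn x k1))]
    linarith [(col x k1 (by linarith)).1, mul_nonneg A0 (v0 x)]
  · have k : gr bg z i x = 0 := by simp [gr, pd_zero_of_ev (z1 x hx)]
    rw [k, mul_zero, zero_sub, abs_neg, abs_mul, abs_of_nonneg A0]
    exact mul_le_of_le_one_right A0 (v2 x (by linarith) i)

end Posa

open Posa in
theorem posa_of (hT : THK) : POSA := by
  intro n M _ D F q C R m h hF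
  have hn := h.dim
  have met := D.met
  have mb : Met (bg : Fld n M) := bg_met
  have R1 := h.R1
  have cF := h.ext.1.cont
  obtain ⟨Y, sY, y0, ⟨z, z0, z1⟩, B, y1⟩ := ex_Y hT hn h.ext R1 h.far h.deep (by
    obtain ⟨a, ha⟩ := h.deep
    exact intermediate_value_univ a (yp (EuclideanSpace.single ⟨0, by omega⟩ R)) cF ⟨ha.le, by
      have R0 := R0_ge M
      have e : ‖(EuclideanSpace.single ⟨0, by omega⟩ R : E n)‖ = R := by
        rw [PiLp.norm_single, Real.norm_of_nonneg (by linarith)]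
      exact zero_le_one.trans (h.far _ (by rw [px_yp (by rw [e]; linarith), e]))⟩)
  obtain ⟨K, K0, hK⟩ := P366Y.B.Posa.g_bd h.toB0.old
  obtain ⟨k, k0, hk⟩ := P366Y.B.Posa.dens_lo h.toB0.old
  have sd : Smooth fun y : M => dens bg y / dens D.g y :=
    CD.div mb.sm_dens met.sm_dens fun y => (met.dens_pos y).ne'
  obtain ⟨N, N0, hN⟩ := bdd_of_out (((sd.pow 2).mul (met.sm.quad le_rfl sY sY)).continuous)
    (R := 2 * R) (C := (1 / k) ^ 2 * (n * K * (n * B ^ 2))) fun x hx => by
      have x1 : R0 M + 1 / 2 ≤ ‖px x‖ := by linarith [R0_ge M]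
      have d0 := met.dens_pos x
      rw [Real.norm_of_nonneg (mul_nonneg (sq_nonneg _) (met.g_nonneg x _)), dens_bg]
      refine mul_le_mul (pow_le_pow_left₀ (by positivity) (one_div_le_one_div_of_le k0 ?_) 2)
        ((quad_le_of_bd (K := K) (fun i j => ?_) _).trans (mul_le_mul_of_nonneg_left ?_
          (by positivity))) (met.g_nonneg x _) (by positivity)
      · rw [(tw_xg D.g).dens x1]
        exact hk _
      · rw [← (tw_xg D.g).eq x1]
        exact hK _ i j
      · refine (Finset.sum_le_sum fun i _ => sq_le_sq' (abs_le.1 (y1 x hx i)).1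
          (abs_le.1 (y1 x hx i)).2).trans (by simp)
  have cd : Continuous fun x => -dv bg Y x := (mb.sm_dv sY).cont.neg
  have ib : ∀ r, IntegrableOn (fun x => -dv bg Y x) {x : M | ‖px x‖ ≤ r} := fun r =>
    cd.continuousOn.integrableOn_compact (isCompact_px M r)
  have oF : IsOpen {x | F x < 0} := isOpen_lt cF continuous_const
  have I0 : 0 < ∫ x in {x | F x < 0}, -dv bg Y x := by
    refine (setIntegral_pos_iff_support_of_nonneg_ae (Eventually.of_forall fun x =>
      neg_nonneg.2 (y0 x)) ((ib R).mono_set fun x hx => not_lt.1 fun k => by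
        linarith [h.far x k.le, show F x < 0 from hx])).2 ?_
    exact (cd.isOpen_support.inter oF).measure_pos _ ⟨z, neg_ne_zero.2 z1.ne, z0⟩
  obtain ⟨c, hc⟩ : ∃ c : ℝ, c = 1 / (N + 1) := ⟨_, rfl⟩
  have c0 : 0 < c := by rw [hc]; positivity
  refine lt_of_lt_of_le (ENNReal.ofReal_pos.2 (mul_pos c0 I0)) (le_sInf ?_)
  rintro _ ⟨G, hG, hGF, rfl⟩
  obtain ⟨R', hR'⟩ := hG.2.2.2
  have ρ0 : 0 < max R' 0 + 1 := by positivity
  have hρ : ∀ x, ¬0 ≤ G x → ‖px x‖ < max R' 0 + 1 := fun x hx => by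
    by_contra hh
    exact hx (hR' x (by linarith [le_max_left R' 0, not_lt.1 hh])).le
  generalize max R' 0 + 1 = ρ at ρ0 hρ
  have ms : MeasurableSet {x | 0 ≤ G x} := (isClosed_le continuous_const hG.1.cont).measurableSet
  have sX : CV ∞ fun i y => cut ρ y * Y i y := CV.smul (sm_cut ρ) sY
  have tf : D.TestField fun i y => c * (dens bg y / dens D.g y * (cut ρ y * Y i y)) := by
    refine ⟨CV.smul cd_const (CV.smul sd sX), ⟨2 * ρ, fun x hx i => ?_⟩, fun x _ => ?_⟩
    · simp only [cut_zero ρ0 hx.le, zero_mul, mul_zero]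
    · have e : ∑ i, ∑ j, D.g x i j * (c * (dens bg x / dens D.g x * (cut ρ x * Y i x))) *
          (c * (dens bg x / dens D.g x * (cut ρ x * Y j x))) = c ^ 2 * cut ρ x ^ 2 *
            ((dens bg x / dens D.g x) ^ 2 * ∑ i, ∑ j, D.g x i j * Y i x * Y j x) := by
        simp only [Finset.mul_sum]
        refine Finset.sum_congr rfl fun i _ => Finset.sum_congr rfl fun j _ => ?_
        ring
      rw [e]
      refine (mul_le_mul (mul_le_of_le_one_right (sq_nonneg c) (pow_le_one₀ (cut_nonneg ρ x)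
        (cut_le_one ρ x))) ((le_abs_self _).trans (hN x)) (mul_nonneg (sq_nonneg _)
          (met.g_nonneg x _)) (sq_nonneg c)).trans ?_
      rw [hc, div_pow, one_pow, div_mul_eq_mul_div, one_mul, div_le_one (by positivity)]
      nlinarith
  refine le_trans (ENNReal.ofReal_le_ofReal ?_) (le_sSup ⟨_, tf, rfl⟩)
  simp only [dv_const_mul, mul_assoc c, Tp.dv_dens mb met]
  have t0 := mb.integral_dv (sX.of_le one_le_oo) (isCompact_px M (2 * ρ)) fun x hx i => by
    rw [cut_zero ρ0 (not_le.1 hx).le, zero_mul]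
  simp only [dens_bg, mul_one] at t0 ⊢
  have t1 := integral_add_compl ms (integrable_of_out (mb.sm_dv sX).cont (R := 2 * ρ + 1)
    fun x hx => dv_zero (cut_ev_out ρ0 (by linarith)) Y)
  have t2 : ∫ x in {x | 0 ≤ G x}ᶜ, dv bg (fun i y => cut ρ y * Y i y) x =
      -∫ x in {x | 0 ≤ G x}ᶜ, -dv bg Y x := by
    rw [integral_neg, neg_neg]
    exact setIntegral_congr_fun ms.compl fun x hx => dv_congr fun i =>
      (cut_ev_in (hρ x hx)).mono fun y hy => by simp only [hy, one_mul]
  have t3 : ∫ x in {x | F x < 0}, -dv bg Y x ≤ ∫ x in {x | 0 ≤ G x}ᶜ, -dv bg Y x :=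
    setIntegral_mono_set ((ib ρ).mono_set fun x hx => (hρ x hx).le)
      (Eventually.of_forall fun x => neg_nonneg.2 (y0 x)) (LE.le.eventuallyLE fun x hx hx' =>
        absurd ((hF x).2 (hGF x hx')) (not_le.2 hx))
  rw [integral_const_mul]
  exact mul_le_mul_of_nonneg_left (by linarith) c0.le

end Vale.Agent.P366M.Y.B
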