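import Vale.Agent.P366Q.B.Defs
import Vale.Agent.P366M.Vol
import Vale.Agent.P366Y.B.Top

/-!
# P366Q, block B: the comparison of the areas and the passage to the limit
-/

open MeasureTheory Metric Filter Topology Set
open scoped ContDiff ENNReal
open Vale.Agent.P366 Vale.Agent.P366.Stmt Vale.Agent.P366Z

noncomputable section

namespace Vale.Agent.P366M.Y.B

namespace Tp

section
variable {n : ℕ} {M : Type} [Mf n M] {g g' : Fld n M}

/-- the divergence of a vector density does not depend on the metric -/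
theorem dv_dens (hg : Met g) (hg' : Met g') (X : Fin n → M → ℝ) (x : M) :
    dv g' (fun i y => dens g y / dens g' y * X i y) x * dens g' x = dv g X x * dens g x := by
  have d := fun y => ((hg.loc' x).dens_pos y).ne'
  have d' := fun y => ((hg'.loc' x).dens_pos y).ne'
  have d0 := fun y => (((bg_met : Met (bg : Fld n M)).loc' x).dens_pos y).ne'
  have e : ∀ i, (fun y => P366Z.dens (rep (ch x) g') y *
      (loc (ch x) (fun y => dens g y / dens g' y) y * repV (ch x) X i y)) =
      fun y => P366Z.dens (rep (ch x) g) y * repV (ch x) X i y := fun i => funext fun y => by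
    have := d y
    have := d' y
    have := d0 y
    rw [loc_apply, dens_loc (ch_mem x), dens_loc (ch_mem x)]
    field_simp
  have k := dens_loc (ch_mem x) g (pt x)
  have k' := dens_loc (ch_mem x) g' (pt x)
  rw [symm_pt] at k k'
  have := d (pt x)
  have := d' (pt x)
  have := d0 (pt x)
  rw [dv, dv, repV_smul, P366Z.dv, P366Z.dv, k, k']
  simp only [e]
  field_simp

theorem dens_sq (hg : Met g) (hg' : Met g') (x : M) :
    (dens g x / dens g' x) ^ 2 = (mat g x).det / (mat g' x).det := by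
  have d0 := (Real.sqrt_pos.2 ((bg_met : Met (bg : Fld n M)).det_pos x)).ne'
  rw [dens, dens, div_div_div_cancel_right₀ d0, div_pow, Real.sq_sqrt (hg.det_pos x).le,
    Real.sq_sqrt (hg'.det_pos x).le]

end

variable {n : ℕ} {M : Type} [Mfe n M] {D D' : Exterior n M} {κ : ℝ}

theorem test (hF : ∀ x, 0 ≤ D'.F x ↔ 0 ≤ D.F x) (hd : ∀ x, 0 ≤ D.F x → Dom κ D.g D'.g x)
    {X : Fin n → M → ℝ} (hX : D.TestField X) :
    D'.TestField fun i y => κ * (dens D.g y / dens D'.g y * X i y) := by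
  obtain ⟨h1, ⟨R, h2⟩, h3⟩ := hX
  refine ⟨CV.smul cd_const (CV.smul (CD.div D.met.sm_dens D'.met.sm_dens
    fun x => (D'.met.dens_pos x).ne') h1), ⟨R, fun x hx i => by simp [h2 x hx i]⟩, fun x hx => ?_⟩
  have hx' := (hF x).1 hx
  have h4 := hd x hx' fun i => X i x
  have h5 := h3 x hx'
  have hp := D'.met.det_pos x
  have hs : ∑ i, ∑ j, D'.g x i j * (κ * (dens D.g x / dens D'.g x * X i x)) *
      (κ * (dens D.g x / dens D'.g x * X j x)) =
      κ ^ 2 * (dens D.g x / dens D'.g x) ^ 2 * ∑ i, ∑ j, D'.g x i j * X i x * X j x := by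
    simp only [Finset.mul_sum]
    refine Finset.sum_congr rfl fun i _ => Finset.sum_congr rfl fun j _ => ?_
    ring
  rw [hs, dens_sq D.met D'.met, ← mul_div_assoc, div_mul_eq_mul_div, div_le_one hp]
  exact h4.trans (mul_le_of_le_one_right hp.le h5)

theorem area_le (hκ : 0 ≤ κ) (hF : ∀ x, 0 ≤ D'.F x ↔ 0 ≤ D.F x)
    (hd : ∀ x, 0 ≤ D.F x → Dom κ D.g D'.g x) (G : M → ℝ) :
    ENNReal.ofReal κ * D.area G ≤ D'.area G := by
  unfold Exterior.area
  rw [ENNReal.mul_sSup]
  refine iSup₂_le ?_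
  rintro a ⟨X, hX, rfl⟩
  refine le_sSup ⟨_, test hF hd hX, ?_⟩
  rw [← ENNReal.ofReal_mul hκ, ← integral_const_mul]
  simp only [dv_const_mul, mul_assoc κ, dv_dens D.met D'.met]

end Tp

/-- **ACMP** holds -/
theorem acmp : ACMP := by
  intro n M _ D D' κ hκ hF hd
  refine le_sInf ?_
  rintro a ⟨G, hG, hs, rfl⟩
  have h1 : D.Amin ≤ D.area G := sInf_le ⟨G, hG, fun x hx => (hF x).1 (hs x hx), rfl⟩
  exact (mul_le_mul_right h1 _).trans (Tp.area_le hκ hF hd G)

/-- the full inequality from the boost and the inequality with the energy -/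
theorem top_of (hB : BST) (hX : A.EXK) (hP : POSA) (hE : EN) : FULL := by
  intro n M _ D m P hn hAF hDEC hT hm hPm
  have hfin := (hE n M D m hn hAF hDEC hT hm).1
  obtain ⟨F, q, C, R, hk, -, -, h1, -⟩ := hX n M D m hn hAF hDEC hT hm
  have hpos : 0 < D.Amin.toReal := ENNReal.toReal_pos (hP n M D F q C R m hk h1).ne' hfin
  have hw : 0 < omega n := omega_pos (by omega)
  have hn' : (3 : ℝ) ≤ n := by exact_mod_cast hn
  have hp : 0 ≤ ((n : ℝ) - 2) / (n - 1) := div_nonneg (by linarith) (by linarith)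
  refine ⟨hfin, P366Y.B.Tp.lim2 (half_pos (Real.rpow_pos_of_pos (div_pos hpos hw) _))
    (Finset.sum_nonneg fun i _ => sq_nonneg _) fun m₂ hm₁ hm₂ => P366Y.B.Tp.lim1 hp
      fun η hη => ?_⟩
  obtain ⟨D', a1, a2, a3, a4, a5⟩ := hB n M D m P hn hAF hDEC hT hm hPm m₂ hm₁ hm₂ η hη
  obtain ⟨b1, b2⟩ := hE n M D' _ hn a1 a2 a3 a4
  have h3 : 0 ≤ 1 - η := sub_nonneg.2 hη.2.le
  have h4 : (1 - η) * D.Amin.toReal ≤ D'.Amin.toReal := by
    have := ENNReal.toReal_mono b1 a5
    rwa [ENNReal.toReal_mul, ENNReal.toReal_ofReal h3] at this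
  refine le_trans (div_le_div_of_nonneg_right (Real.rpow_le_rpow
    (div_nonneg (mul_nonneg h3 hpos.le) hw.le) (div_le_div_of_nonneg_right h4 hw.le) hp)
    zero_le_two) b2

end Vale.Agent.P366M.Y.B
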