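import Vale.Agent.P366Q.B.Lift
import Vale.Agent.P366M.End2
import Vale.Agent.P366Y.B.Wk2

/-!
# P366Q, block B, row WK2: the strict supersolution with compact support
-/

open MeasureTheory Metric Filter Topology Set
open scoped ContDiff ENNReal
open Vale.Agent.P366 Vale.Agent.P366.Stmt Vale.Agent.P366Z
open Vale.Agent.P366Y.B (bp RB2)

noncomputable section

namespace Vale.Agent.P366M.Y.B

open A (Bk mg THK xg tw_xg met_xg cpt_of)
open A.WkH (pw af_mono mg_pos mg_le mg_le')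

namespace Wk2H

variable {n : ℕ} {M : Type} [Mf0 n M] {g : Fld n M} {u v : M → ℝ} {x : M} {k : ℝ}

/-- the operator with the drift -/
def nk (g : Fld n M) (k : ℝ) (u : M → ℝ) (x : M) : ℝ := lap g u x + k * gn g u x

theorem cont_nk (hg : Met g) (hu : Smooth u) : Continuous (nk g k u) :=
  (hg.sm_lap hu).cont.add (continuous_const.mul (hg.sm_ip hu hu).cont.sqrt)

theorem nk_congr (e : u =ᶠ[𝓝 x] v) : nk g k u x = nk g k v x := by
  rw [nk, nk, lap_congr e, gn_congr e]

theorem nk_const {c : ℝ} (e : u =ᶠ[𝓝 x] fun _ => c) : nk g k u x = 0 := by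
  rw [nk_congr e, nk, lap_const, gn_zero fun i => pd_const c i x, mul_zero, add_zero]

theorem nk_le {G : Fld n M} {k' : ℝ} (e : G =ᶠ[𝓝 x] g) (h : k ≤ k') :
    nk G k u x ≤ nk g k' u x := by
  rw [nk, nk, lap_of_ev e, gn_of_eq e.self_of_nhds]
  exact add_le_add_right (mul_le_mul_of_nonneg_right h (gn_nonneg _ _ _)) _

theorem nk_add (hg : Met g) (hu : Smooth u) (hv : Smooth v) {A : ℝ} (hA : 0 ≤ A) (hk : 0 ≤ k) :
    nk g k (fun y => 1 * u y + A * v y) x ≤ nk g k u x + A * nk g k v x := by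
  have h2 := mul_le_mul_of_nonneg_left (Y.A.Asm.gn_lin hg hu hv hA x) hk
  rw [nk, nk, nk, hg.lap_lin (hu.c2 x) (hv.c2 x)]
  linarith

end Wk2H

open Wk2H

/-- **WK2** -/
theorem wk2_of : RB2 → THK → WK2 := by
  intro hB hT n M _ g K F q C R m q' C' hS q0 qq C1
  have hn := hS.dim
  have hg := hS.met
  have R1 := hS.R1
  have R8 := R0_ge M
  obtain ⟨c, c0, L, L0, R₀, -, hB⟩ := hB n q' C' hn q0 C1
  obtain ⟨r, h1, h2⟩ : ∃ r, 2 * R ≤ r ∧ R₀ ≤ r := ⟨_, le_max_left _ _, le_max_right _ _⟩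
  have r0 : 0 < r := by linarith
  obtain ⟨θ, sθ, hθ, hθ'⟩ := hT n M g F r C' hn hg hS.ext C1.le
  obtain ⟨c₁, c1, hc₁⟩ := ((isCompact_px M r).inter_right (isClosed_le continuous_const
      hS.ext.1.cont (f := fun _ => 0))).exists_forall_le' (cont_nk (k := C') hg sθ).neg.continuousOn
    (a := 0) fun x hx => neg_pos.2 (hθ x hx.2 hx.1)
  have hK : IsCompact {x | F x = 0} := cpt_of (R := R) (isClosed_eq hS.ext.1.cont continuous_const)
    fun x hx => not_lt.1 fun h => by linarith [hS.far x h.le, show F x = 0 from hx]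
  obtain ⟨c₂, c2, hc₂⟩ := hK.exists_forall_le' (hg.sm_ip sθ hS.ext.1).cont.neg.continuousOn
    (a := 0) fun x hx => neg_pos.2 (hθ' x hx)
  obtain ⟨z, hz⟩ : ∃ z : M → ℝ, z = fun x => cut r x * θ x := ⟨_, rfl⟩
  have sz : Smooth z := hz ▸ CD.mul (Y.A.sm_cut r) sθ
  have z0 : ∀ x, 2 * r ≤ ‖px x‖ → z x = 0 := fun x hx => by simp [hz, Y.A.cut_zero r0 hx]
  have z1 : ∀ x, 2 * r < ‖px x‖ → z =ᶠ[𝓝 x] fun _ => 0 := fun x hx =>
    (ev_lt_px hx).mono fun y hy => z0 y hy.le
  have z2 : ∀ x, ‖px x‖ < r → z =ᶠ[𝓝 x] θ := fun x hx =>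
    (ev_px_lt hx).mono fun y hy => by simp [hz, Y.A.cut_one hy.le]
  obtain ⟨N, M0, hM⟩ := bdd_of_const sz (R := 2 * r) (c := 0) fun y hy => z0 y hy.le
  obtain ⟨M', hM'⟩ := (isCompact_px M (2 * r)).exists_bound_of_continuousOn
    (cont_nk (k := C') hg sz).continuousOn
  have p1 : 0 < c * r ^ q' := by positivity
  have p0 : 0 < c * r ^ q' * (2 * r) ^ (-(n + q')) := by positivity
  obtain ⟨A, A0, hA⟩ : ∃ A, 0 < A ∧ A * (c * r ^ q' * (2 * r) ^ (-(n + q'))) = |M'| + 1 :=
    ⟨_, by positivity, div_mul_cancel₀ _ p0.ne'⟩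
  obtain ⟨e, e0, e1, e2, e3, e4⟩ : ∃ e, 0 < e ∧ e ≤ c₁ ∧ e ≤ c₂ ∧ e ≤ 1 ∧ e ≤ A * (c * r ^ q') :=
    ⟨min (min c₁ c₂) (min 1 (A * (c * r ^ q'))), by positivity, by simp, by simp, by simp, by simp⟩
  have a2 := mul_pos A0 L0
  refine ⟨N + A * L, by positivity, e, e0, 3 * r, fun ρ (hρ : 3 * r ≤ ρ) T (hT : 2 * ρ ≤ T) G mG
    aG eG => ?_⟩
  obtain ⟨b, sb, b0, b1, b2, b3, b4⟩ := hB (xg G) R r ρ T (met_xg mG) (((tw_xg G).af
    (by linarith)).1 (af_mono aG (by linarith) qq.le le_rfl C1.le)) h1 h2 (by linarith) hT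
  have bc : ∀ y : E n, ‖y‖ < R0 M + 1 → b y = b 0 := fun y hy => b0 y (by linarith)
  have sb' : Smooth fun y : M => b (px y) := smooth_px sb
  have nb : ∀ (x : M) k, nk G k (fun y => b (px y)) x =
      P366Z.lap (xg G) b (px x) + k * P366Z.gn (xg G) b (px x) := fun x k => by
    rw [nk, (tw_xg G).lap_px bc, (tw_xg G).gn_px bc]
  refine ⟨fun y => 1 * z y + A * b (px y), Y.A.Asm.sm_lin sz sb' 1 A,
    fun x => ?_, fun x hx => ?_, fun x hx => ?_, fun x k hx k0 k1 => ?_, fun x hx => ?_⟩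
  · refine (abs_add_le _ _).trans (add_le_add (by simpa using (hM x).1) ?_)
    rw [abs_mul, abs_of_pos A0]
    exact mul_le_mul_of_nonneg_left (b1 _) A0.le
  · simp only [z0 x (by linarith), mul_zero, zero_add, abs_mul, abs_of_pos A0]
    refine (mul_le_mul_of_nonneg_left (b2 _ (by linarith)) A0.le).trans ?_
    rw [← mul_assoc]
    exact mul_le_mul_of_nonneg_right (by linarith) (by positivity)
  · simp only [z0 x (by linarith), b3 _ hx, mul_zero, add_zero]
  · have q1 : -(q + 1) ≤ 0 := by linarith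
    have k2 : k ≤ C' := k1.trans (mul_le_of_le_one_right C1.le
      (Real.rpow_le_one_of_one_le_of_nonpos (le_add_of_nonneg_right (norm_nonneg _)) q1))
    obtain ⟨d1, d2⟩ := b4 (px x) k k0 fun h => (k1.trans (mul_le_mul_of_nonneg_left
      (Real.rpow_le_rpow_of_nonpos (by linarith) (le_add_of_nonneg_left zero_le_one) q1)
      C1.le)).trans (pw (by linarith) (by linarith) le_rfl C1.le)
    have d3 := mul_le_mul_of_nonneg_left d1 A0.le
    have d4 := mul_nonneg M0.le (P366Y.B.Wk2H.bp_nonneg (x := px x) (show 0 ≤ ρ by linarith))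
    have d5 := nk_add (x := x) mG sz sb' A0.le k0
    rw [nb] at d5
    have d6 := mul_pos e0 (mg_pos (q' := q') (x := x))
    have d7 : e * mg q' x ≤ e := mul_le_of_le_one_right e0.le (mg_le q0)
    have main : ‖px x‖ ≤ T → nk G k (fun y => 1 * z y + A * b (px y)) x ≤
        (N + A * L) * bp ρ (px x) - e * mg q' x := fun hx' => by
      rcases lt_or_ge ‖px x‖ r with h | h
      · have k3 : c₁ ≤ -nk g C' θ x := hc₁ x ⟨h.le, hx⟩
        have k4 := nk_le (u := θ) (eG x (by linarith)) k2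
        rw [nk_congr (z2 x h)] at d5
        linarith
      have k3 := mul_le_mul_of_nonneg_left (d2 h hx') A0.le
      rcases le_or_gt ‖px x‖ (2 * r) with h' | h'
      · have k4 := (nk_le (u := z) (eG x (by linarith)) k2).trans ((le_abs_self _).trans
          ((hM' x h').trans (le_abs_self _)))
        have k5 := mul_le_mul_of_nonneg_left (Real.rpow_le_rpow_of_nonpos (r0.trans_le h) h'
          (z := -(n + q')) (neg_nonpos.2 (by positivity))) (mul_pos A0 p1).le
        linarith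
      · have k4 := mul_le_mul e4 (mg_le' q0 (r0.trans_le h)) mg_pos.le (mul_pos A0 p1).le
        rw [nk_const (z1 x h')] at d5
        linarith
    refine ⟨?_, main⟩
    rcases le_or_gt ‖px x‖ T with h | h
    · exact (main h).trans (by linarith)
    · rw [nk_const (z1 x (by linarith))] at d5
      exact d5.trans (by linarith)
  · have k1 : ‖px x‖ < R := not_le.1 fun h => by linarith [hS.far x h]
    rw [ip_congr (u' := fun y => θ y + A * b 0) (((z2 x (by linarith)).and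
      (ev_px_lt (show ‖px x‖ < r / 2 by linarith))).mono fun y hy => by
        simp [hy.1, b0 _ hy.2.le]) EventuallyEq.rfl,
      ip_add_left (sθ.diff x) (dAt_const _), ip_const_left, add_zero]
    exact le_neg.1 (e2.trans (hc₂ x hx))

end Vale.Agent.P366M.Y.B
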