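import Vale.Agent.P366Q.B.Bst
import Vale.Agent.P366Q.B.Chd
import Vale.Agent.P366Q.B.Farm
import Vale.Agent.P366Q.B.Glu
import Vale.Agent.P366Q.B.Posa
import Vale.Agent.P366Q.B.Top
import Vale.Agent.P366Q.B.Wk2
import Vale.Agent.P366Q.A.Exk
import Vale.Agent.P366Q.A.Thk
import Vale.Agent.P366Y.B.Chm
import Vale.Agent.P366Y.B.Cmp2
import Vale.Agent.P366Y.B.Dcw
import Vale.Agent.P366Y.B.Def2
import Vale.Agent.P366Y.B.Ere
import Vale.Agent.P366Y.B.Ers
import Vale.Agent.P366Y.B.Exm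
import Vale.Agent.P366Y.B.Gl0
import Vale.Agent.P366Y.B.Inp
import Vale.Agent.P366Y.B.Mid
import Vale.Agent.P366Y.B.Mln
import Vale.Agent.P366Y.B.Mod
import Vale.Agent.P366Y.B.Np
import Vale.Agent.P366Y.B.Np2
import Vale.Agent.P366Y.B.Pert
import Vale.Agent.P366Y.B.Pull
import Vale.Agent.P366Y.B.Rb2
import Vale.Agent.P366Y.B.Sbi2
import Vale.Agent.P366Y.B.Solv
import Vale.Agent.P366Y.B.Sv1
import Vale.Agent.P366Y.B.Sv2

/-!
# P366Q, block B: from the energy to the mass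
-/

namespace Vale.Agent.P366M.Y.B

open Vale.Agent.P366Z Vale.Agent.P366Z.St0 Vale.Agent.P366Y.B

theorem glu : GLU :=
  glu_of gl0 (solv_of ere ers bp0 (np2_of (np_of sbi2)) ky0)
    (mid_of (def2_of scl (mln_of mat0)) (lapd_of mat0 scl)) (inp_of pert)
    (def2_of scl (mln_of mat0)) pert (wk2_of (rb2_of mat0 scl) A.thk) bp0

theorem bst : BST :=
  bst_of A.exk (chd2_of mas1 mat0) glu sv1 sue sv2 boe pull0 (mod_of exm dcw) (chm_of exm dcw)
    (farm_of sv1 sv2 cls) fars3 cmp2 acmp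

theorem posa : POSA := posa_of A.thk

/-- the inequality with the mass from the inequality with the energy -/
theorem full_of (h : EN) : FULL := top_of bst A.exk posa h

end Vale.Agent.P366M.Y.B
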