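import Vale.Agent.P366Q.B.Lift
import Vale.Agent.P366Y.B.Bst

/-!
# P366Q, block B: the boost
-/

open MeasureTheory Metric Filter Topology Set
open scoped ContDiff ENNReal
open Vale.Agent.P366 Vale.Agent.P366.Stmt Vale.Agent.P366Z
open Vale.Agent.P366Y.B (Md SV1 SUE SV2 BOE PULL MOD CHM CMP2)
open Vale.Agent.P366Y.B.BstH (af_mono ak_mono rp_le model sm_lv pd_lv)

noncomputable section

namespace Vale.Agent.P366M.Y.B

open A (Sy Bk Ak Tw xg xk tw_xg tw_xk tw_fe met_xg EXK)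

namespace BstH

variable {n : ℕ} {M : Type} [Mfe n M] {g g' K : Fld n M} {F : M → ℝ} {q C C' R R' m : ℝ}

theorem bk_mono (h : Bk g K F q C R m) (hC : C ≤ C') (hR : R ≤ R') : Bk g K F q C' R' m :=
  { h with
    C0 := h.C0.trans_le hC
    R1 := h.R1.trans hR
    af := af_mono h.af hC hR
    far := fun x hx => h.far x (hR.trans hx)
    dk := fun x hx => ⟨(h.dk x (hR.trans hx)).1.trans (rp_le hC _),
      (h.dk x (hR.trans hx)).2.trans (rp_le hC _)⟩ }

theorem met_const (hg : Met g) (x : M) : P366Z.Met fun _ : E n => g x :=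
  ⟨fun _ _ => contDiff_const, fun _ => hg.sy x, fun _ => hg.pos x⟩

/-- the end of the data -/
theorem md (chd : CHD) {P : Fin n → ℝ} (h : Bk g K F q C R m) (hK : Ak K q C R)
    (hP : ∀ i, Tendsto (flx fun j y => Stmt.momT (fe g) (fe K) y i j) atTop (𝓝 (P i))) :
    Md (xg g) (xk K) q C R m P := by
  have R1 := h.R1
  have e : ∀ y : E n, R ≤ ‖y‖ → px (yp y : M) = y := fun y hy => px_yp (by linarith)
  have ak := ((tw_xk K).ak (by linarith)).1 hK
  obtain ⟨ce, cp⟩ := chd n _ _ q C R m P h.toB0.old h.sy.xk (fun y hy => by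
    have := (h.dk (yp y) (by rwa [e y hy])).2
    rwa [(tw_xg g).tr (tw_xk K) (by rw [e y hy]; linarith), e y hy] at this) ak fun i => by
      refine (hP i).congr' ?_
      filter_upwards [eventually_ge_atTop (R0 M + 1)] with r hr
      refine St0.ExtA.flx_congr (by linarith [R0_ge M]) fun j y hy => ?_
      have k := ((tw_xg g).ev (y := y) (by linarith)).eq_of_nhds
      have k' := ((tw_xk K).ev (y := y) (by linarith)).eq_of_nhds
      simp only [Stmt.momT, Stmt.tr, P366Z.up_of_eq k, k, k']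
  refine ⟨met_xg h.met, h.sy.xk, h.toB0.old.af, ak, fun y hy => ?_, ce, cp⟩
  have k : R0 M + 1 / 2 < ‖px (yp y : M)‖ := by
    rw [e y hy]
    linarith
  have := h.dec (yp y) (by linarith [h.far (yp y) (by rwa [e y hy])])
  rwa [(tw_xg g).cm (tw_xk K) k, (tw_xg g).mu (tw_xk K) k, e y hy] at this

end BstH

open BstH in
theorem bst_of (exq : EXK) (chd : CHD) (glu : GLU) (sv1 : SV1) (sue : SUE) (sv2 : SV2) (boe : BOE)
    (pl : PULL) (mod : MOD) (chm : CHM) (farm : FARM) (fars : FARS) (cmp2 : CMP2)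
    (acmp : ACMP) : BST := by
  intro n M _ D m P hn hAF hDEC hT hE hP m₂ hm hp η hη
  obtain ⟨F, q, C, R, hB, hK, q1, hF, -, hz⟩ := exq n M D m hn hAF hDEC hT hE
  have p0 : 0 ≤ ∑ i, P i ^ 2 := by positivity
  have m0 : 0 < m₂ := (Real.sqrt_nonneg _).trans_lt hp
  have p1 : ∑ i, P i ^ 2 < m₂ ^ 2 := (Real.sqrt_lt' m0).1 hp
  obtain ⟨N, hM⟩ : ∃ N, N = √(m₂ ^ 2 - ∑ i, P i ^ 2) := ⟨_, rfl⟩
  have M0 : 0 < N := hM ▸ Real.sqrt_pos.2 (by linarith)
  have M2 : N ^ 2 = m₂ ^ 2 - ∑ i, P i ^ 2 := hM ▸ Real.sq_sqrt (by linarith)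
  have M1 : N ≤ m₂ := by nlinarith
  have v2 : ∑ i, (P i / m₂) ^ 2 = (∑ i, P i ^ 2) / m₂ ^ 2 := by
    simp only [div_pow, Finset.sum_div]
  obtain ⟨y₁, u, hu⟩ := sue n (N / 2) hn (by positivity)
  obtain ⟨L, hL⟩ := boe n (fun i => P i / m₂) (m₂ / N) ((one_le_div M0).2 M1) (by
    rw [v2, div_pow, M2]
    have : m₂ ^ 2 - ∑ i, P i ^ 2 ≠ 0 := by linarith
    field_simp)
  have q0 : 0 < q := by
    have : (3 : ℝ) ≤ n := by exact_mod_cast hn
    linarith [hB.q0]
  obtain ⟨C₂, -, af, ak⟩ := mod n _ y₁ _ q u _ L hu hL q0 q1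
  obtain ⟨ce₂, cp₂⟩ := chm n _ y₁ _ u _ L hu hL
  have e1 : 2 * (N / 2) * (m₂ / N) = m₂ := by field_simp
  have e2 : (fun j => m₂ * (P j / m₂)) = P := funext fun j => by field_simp
  rw [e1] at ce₂ cp₂
  rw [e2] at cp₂
  obtain ⟨g1, g2, g3⟩ := model sv1 sv2 pl hu hL (sm_lv _) fun y => by
    simp only [pd_lv]
    rw [v2, div_lt_one (by positivity)]
    exact p1
  obtain ⟨B, farm⟩ := farm n _ y₁ _ u _ L hu hL
  generalize (fun i => P i / m₂) = v at af ak ce₂ cp₂ g1 g2 g3 farm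
  have c1 := le_max_left C C₂
  have c2 := le_max_right C C₂
  have r1 := le_max_left R (y₁ + 1)
  have r2 := le_max_right R (y₁ + 1)
  have R1 := hB.R1
  have R8 := R0_ge M
  obtain ⟨e, e0, cmp2⟩ := cmp2 n η (max B 0) hη
  obtain ⟨T₀, farm⟩ := farm e e0
  have hB' := bk_mono hB c1 r1
  obtain ⟨G, H, r, T, t1, t2, mG, sH, dec, trap, far, inn, out⟩ :=
    glu n M D.g D.K _ _ F q _ _ m m₂ P hB' (md chd hB' (ak_mono hK c1 r1) hP)
      ⟨g1, g2, af_mono af c2 (by linarith), ak_mono ak c2 (by linarith),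
        fun x hx => g3 x (by linarith), ce₂, cp₂⟩ q1 hm e e0 (max T₀ (max R (y₁ + 1)))
  have t3 := le_max_left T₀ (max R (y₁ + 1))
  have t4 := le_max_right T₀ (max R (y₁ + 1))
  obtain ⟨G₃, H₃, T', b1, b2, b3, b4, b5, b6⟩ := farm (T + 1)
  obtain ⟨G', pG⟩ := patch (A := G) (B := G₃) (lt_add_one T) (by linarith) fun x h1 h2 =>
    (far x h1).1.trans (b3 _ h2).1.symm
  obtain ⟨H', pH⟩ := patch (A := H) (B := H₃) (lt_add_one T) (by linarith) fun x h1 h2 =>
    (far x h1).2.trans (b3 _ h2).2.symm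
  have mG' := pG.met mG b1
  have sH' := pH.sy sH b2
  let D₁ : Exterior n M := ⟨F, G', H', hB.ext, hz, mG', sH'.sm, sH'.sy⟩
  obtain ⟨w1, w2⟩ := fars n M D₁ (N / 2) (max T T') hn (by positivity) fun x hx => by
    have k1 := (le_max_left _ _).trans hx
    obtain ⟨k2, k3⟩ := b5 _ ((le_max_right _ _).trans hx)
    exact ⟨fun i j => (congrFun₂ (pG.out x k1) i j).trans (k2 i j), (pH.out x k1).trans k3⟩
  refine ⟨D₁, w1, fun x hx => ?_, fun x hx => ?_, ?_,
    acmp n M D D₁ _ (by linarith [hη.2]) hF fun x _ => ?_⟩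
  · rcases lt_or_ge T ‖px x‖ with k | k
    · exact dec_out (by linarith) (pG.ev_out k) (pH.ev_out k) (b4 _ (by linarith))
    · have k' : ‖px x‖ < T + 1 := by linarith
      exact (A.Fin1.cov_ev (pG.ev_in k') (pH.ev_in k')).trans_le ((dec x hx).trans_eq
        (A.Fin1.mu_ev (pG.ev_in k') (pH.ins x k'.le)).symm)
  · have k0 : F x = 0 := hx
    have k : ‖px x‖ < T + 1 := by
      by_contra k
      linarith [hB.far x (by linarith [not_lt.1 k])]
    exact (A.Fin1.th_ev (pG.ev_in k) (pH.ins x k.le)).trans_le (trap x hx)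
  · rw [← hM, show N = 2 * (N / 2) by ring]
    exact w2
  · obtain ⟨d1, d2⟩ := cmp2 _ _ 0 (met_const D.met x) (met_const mG' x)
    show Dom (1 - η) D.g G' x
    rcases le_total T ‖px x‖ with k | k
    · obtain ⟨w, k2, k3⟩ := b6 (px x) (by linarith)
      exact d2 w (k2.trans (le_max_left _ _)) (fun i j => (out x (by linarith) i j).2) fun i j => by
        rw [pG.out x k]
        exact k3 i j
    · have k1 := pG.ins x (by linarith)
      rcases le_total ‖px x‖ r with k2 | k2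
      · obtain ⟨c, k3, k4⟩ := inn x k2
        exact d1 c k3 fun i j => by rw [k1, k4]
      · exact d2 0 (by simp) (fun i j => (out x k2 i j).2) fun i j => by
          rw [k1, Pi.zero_apply, zero_mul, add_zero]
          exact (out x k2 i j).1

end Vale.Agent.P366M.Y.B
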