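import Vale.Agent.P366Q.A.Defs
import Vale.Agent.P366Q.Sk2

/-!
# P366Q, block B: the boost on a manifold (definitions, statements)

The statements about the model and the linear correction are those of `P366Y.B` on Euclidean space.
-/

open MeasureTheory Metric Filter Topology Set
open scoped ContDiff ENNReal
open Vale.Agent.P366 Vale.Agent.P366.Stmt Vale.Agent.P366Z
open Vale.Agent.P366Y.B (bp Md Ce Cp Su Bo gM kM lv)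

noncomputable section

namespace Vale.Agent.P366M.Y.B

open A (Sy B0 Bk mg Af Ak xg xk)

/-- the area element of `g'` dominates `κ` times the area element of `g` -/
def Dom {n : ℕ} {M : Type} [Mf0 n M] (κ : ℝ) (g g' : Fld n M) (x : M) : Prop :=
  ∀ X : Fin n → ℝ, κ ^ 2 * (mat g x).det * ∑ i, ∑ j, g' x i j * X i * X j ≤
    (mat g' x).det * ∑ i, ∑ j, g x i j * X i * X j

/-- **CHD**: the charges of an end of Euclidean space -/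
def CHD : Prop := ∀ (n : ℕ) (g K : Field n) q C R m (P : Fin n → ℝ), P366Y.A.B0 g q C R m →
  P366Y.A.Sy K → (∀ x, R ≤ ‖x‖ → |Stmt.tr g K x| ≤ C * ‖x‖ ^ (-(q + 1))) → P366Y.B.Ak K q C R →
  (∀ i, Tendsto (flx fun j x => Stmt.momT g K x i j) atTop (𝓝 (P i))) → Ce g m ∧ Cp K P

/-- **WK2**: the strict supersolution with compact support -/
def WK2 : Prop := ∀ (n : ℕ) (M : Type) [Mfe n M] (g K : Fld n M) F q C R m (q' C' : ℝ),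
  Bk g K F q C R m → 0 < q' → q' < q → 0 < C' → ∃ L > (0 : ℝ), ∃ c > (0 : ℝ), ∃ ρ₀ : ℝ, ∀ ρ ≥ ρ₀,
    ∀ T ≥ 2 * ρ, ∀ G : Fld n M, Met G → Af G q C' R → (∀ x, ‖px x‖ < ρ → G =ᶠ[𝓝 x] g) →
      ∃ w, Smooth w ∧ (∀ x, |w x| ≤ L) ∧ (∀ x, ρ ≤ ‖px x‖ → |w x| ≤ L * ‖px x‖ ^ (2 - n : ℝ)) ∧
        (∀ x, 2 * T ≤ ‖px x‖ → w x = 0) ∧
        (∀ (x : M) (k : ℝ), 0 ≤ F x → 0 ≤ k → k ≤ C' * (1 + ‖px x‖) ^ (-(q + 1)) →
          lap G w x + k * gn G w x ≤ L * bp ρ (px x) ∧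
            (‖px x‖ ≤ T → lap G w x + k * gn G w x ≤ L * bp ρ (px x) - c * mg q' x)) ∧
        ∀ x, F x = 0 → ip g w F x ≤ -c

/-- **GLU**: the gluing -/
def GLU : Prop := ∀ (n : ℕ) (M : Type) [Mfe n M] (g K : Fld n M) (g₂ K₂ : Field n) F q C R m m₂
  (P : Fin n → ℝ), Bk g K F q C R m → Md (xg g) (xk K) q C R m P → Md g₂ K₂ q C R m₂ P →
  q ≤ n - 2 → m < m₂ → ∀ e > (0 : ℝ), ∀ r₀ : ℝ, ∃ (G H : Fld n M) (r T : ℝ), r₀ ≤ r ∧ r ≤ T ∧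
    Met G ∧ Sy H ∧ (∀ x, 0 ≤ F x → covNorm G (mom G H) x ≤ mu G H x) ∧
    (∀ x, F x = 0 → thetaPlus G H F x ≤ 0) ∧
    (∀ x, T ≤ ‖px x‖ → G x = g₂ (px x) ∧ H x = K₂ (px x)) ∧
    (∀ x, ‖px x‖ ≤ r → ∃ c : ℝ, |c - 1| ≤ e ∧ ∀ i j, G x i j = c * g x i j) ∧
    ∀ x, r ≤ ‖px x‖ → ∀ i j, |G x i j - eu n x i j| ≤ e ∧ |g x i j - eu n x i j| ≤ e

/-- **FARM**: the boosted slice is bent to the static slice in the standard coordinates -/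
def FARM : Prop := ∀ (n : ℕ) (a y₁ γ : ℝ) (u : E n → ℝ) (v : Fin n → ℝ) L, Su a y₁ u → Bo v γ L →
  ∃ B : ℝ, ∀ e > (0 : ℝ), ∃ T₀ : ℝ, ∀ T : ℝ, ∃ (G H : Field n) (T' : ℝ), P366Z.Met G ∧
    P366Y.A.Sy H ∧ (∀ y, ‖y‖ ≤ T → G y = gM L u (lv v) y ∧ H y = kM L u (lv v) y) ∧
    (∀ y, y₁ < ‖y‖ → Stmt.covNorm G (Stmt.mom G H) y ≤ Stmt.mu G H y) ∧
    (∀ y, T' ≤ ‖y‖ → (∀ i j, G y i j =
      (1 + a * ‖y‖ ^ (2 - n : ℝ)) ^ (2 * bb n) * P366Z.eu n y i j) ∧ H y = 0) ∧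
    ∀ y, T₀ ≤ ‖y‖ → ∃ w : Fin n → ℝ, ∑ i, w i ^ 2 ≤ B ∧
      ∀ i j, |G y i j - (P366Z.eu n y i j + w i * w j)| ≤ e

/-- **FARS**: data that are Schwarzschild near infinity -/
def FARS : Prop := ∀ (n : ℕ) (M : Type) [Mfe n M] (D : Exterior n M) (a T : ℝ), 3 ≤ n → 0 ≤ a →
  (∀ x, T ≤ ‖px x‖ → (∀ i j, D.g x i j =
    (1 + a * ‖px x‖ ^ (2 - n : ℝ)) ^ (2 * bb n) * eu n x i j) ∧ D.K x = 0) →
  D.IsAF ∧ D.IsEnergy (2 * a)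

/-- **ACMP**: the comparison of the areas -/
def ACMP : Prop := ∀ (n : ℕ) (M : Type) [Mfe n M] (D D' : Exterior n M) (κ : ℝ), 0 ≤ κ →
  (∀ x, 0 ≤ D'.F x ↔ 0 ≤ D.F x) → (∀ x, 0 ≤ D.F x → Dom κ D.g D'.g x) →
  ENNReal.ofReal κ * D.Amin ≤ D'.Amin

/-- **POSA**: the minimal area is positive -/
def POSA : Prop := ∀ (n : ℕ) (M : Type) [Mfe n M] (D : Exterior n M) F q C R m,
  Bk D.g D.K F q C R m → (∀ x, 0 ≤ F x ↔ 0 ≤ D.F x) → 0 < D.Amin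

/-- **BST**: the boost -/
def BST : Prop := ∀ (n : ℕ) (M : Type) [Mfe n M] (D : Exterior n M) (m : ℝ) (P : Fin n → ℝ),
  3 ≤ n → D.IsAF → D.DEC → D.Trapped → D.IsEnergy m → D.IsMomentum P → ∀ m₂, m < m₂ →
  √(∑ i, P i ^ 2) < m₂ → ∀ η ∈ Ioo (0 : ℝ) 1, ∃ D' : Exterior n M, D'.IsAF ∧ D'.DEC ∧
    D'.Trapped ∧ D'.IsEnergy √(m₂ ^ 2 - ∑ i, P i ^ 2) ∧ ENNReal.ofReal (1 - η) * D.Amin ≤ D'.Amin

end Vale.Agent.P366M.Y.B
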