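import Vale.Agent.P366Q.B.Defs
import Vale.Agent.P366Q.A.Xt
import Vale.Agent.P366Q.A.Fin1

/-!
# P366Q, block B: fields of the manifold patched with fields of the end
-/

open MeasureTheory Metric Filter Topology Set
open scoped ContDiff ENNReal
open Vale.Agent.P366 Vale.Agent.P366.Stmt Vale.Agent.P366Z

noncomputable section

namespace Vale.Agent.P366M.Y.B

open A (Sy Tw tw_px tw_of)

variable {n : ℕ} {M : Type} [Mfe n M] {x : M} {T T₁ : ℝ}

/-- `C` is `A` inside the radius `T₁` and `B` outside the radius `T` -/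
structure Pt {α : Type} (A : M → α) (B : E n → α) (C : M → α) (T T₁ : ℝ) : Prop where
  lt : T < T₁
  far : R0 M ≤ T
  ins : ∀ x, ‖px x‖ ≤ T₁ → C x = A x
  out : ∀ x, T ≤ ‖px x‖ → C x = B (px x)

section
variable {α : Type} {A C : M → α} {B : E n → α}

theorem patch (hT : T < T₁) (h0 : R0 M ≤ T)
    (h : ∀ x, T ≤ ‖px x‖ → ‖px x‖ ≤ T₁ → A x = B (px x)) : ∃ C, Pt A B C T T₁ := by
  refine ⟨fun x => if ‖px x‖ ≤ T₁ then A x else B (px x), hT, h0, fun x hx => if_pos hx,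
    fun x hx => ?_⟩
  by_cases k : ‖px x‖ ≤ T₁
  · simp only [if_pos k, h x hx k]
  · simp only [if_neg k]

theorem Pt.ev_in (h : Pt A B C T T₁) (hx : ‖px x‖ < T₁) : C =ᶠ[𝓝 x] A :=
  (ev_px_lt hx).mono fun y hy => h.ins y hy.le

theorem Pt.ev_out (h : Pt A B C T T₁) (hx : T < ‖px x‖) : C =ᶠ[𝓝 x] fun z => B (px z) :=
  (ev_lt_px hx).mono fun y hy => h.out y hy.le

theorem Pt.tw (h : Pt A B C (R0 M + 1 / 2) T₁) : Tw C B :=
  tw_of fun x hx => (h.out x hx).symm

end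

variable {A C : Fld n M} {B : Field n}

theorem cda_px (hB : ∀ i j, Stmt.Smooth fun y => B y i j) (hx : R0 M < ‖px x‖) (i j : Fin n) :
    ContDiffAt ℝ ∞ (fun y => rep (ch x) (fun z : M => B (px z)) y i j) (pt x) := by
  obtain ⟨a, y, rfl, e⟩ := far_rep (x := x) (by linarith)
  rw [e] at hx
  rw [pt_ye hx.le]
  refine (hB i j).contDiffAt.congr_of_eventuallyEq ?_
  filter_upwards [rep_ye (j := a) hx fun z : M => B (px z),
    fj_px (j := a) (show R0 M - 6 < ‖y‖ by linarith) B] with z h1 h2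
  rw [h1, h2]

theorem Pt.smT (h : Pt A B C T T₁) (hA : SmT A) (hB : ∀ i j, Stmt.Smooth fun y => B y i j) :
    SmT C := by
  refine smT_of fun x => ⟨ch x, ch_mem x, mem_ch x, fun i j => ?_⟩
  rcases lt_or_ge T ‖px x‖ with k | k
  · exact (cda_px hB (h.far.trans_lt k) i j).congr_of_eventuallyEq
      ((rep_congr_pt (h.ev_out k)).mono fun y hy => by simp only [hy])
  · exact (hA _ (ch_mem x) i j).contDiffAt.congr_of_eventuallyEq
      ((rep_congr_pt (h.ev_in (k.trans_lt h.lt))).mono fun y hy => by simp only [hy])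

theorem Pt.sy (h : Pt A B C T T₁) (hA : Sy A) (hB : P366Y.A.Sy B) : Sy C := by
  refine ⟨h.smT hA.sm hB.sm, fun x i j => ?_⟩
  rcases le_total T ‖px x‖ with k | k
  · rw [h.out x k, hB.sy]
  · rw [h.ins x (k.trans h.lt.le), hA.sy]

theorem Pt.met (h : Pt A B C T T₁) (hA : Met A) (hB : P366Z.Met B) : Met C := by
  have s := h.sy ⟨hA.sm, hA.sy⟩ ⟨hB.sm, hB.sy⟩
  refine ⟨s.sm, s.sy, fun x => ?_⟩
  rcases le_total T ‖px x‖ with k | k
  · have := hB.pos (px x)
    rwa [Stmt.mat, ← h.out x k] at this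
  · have := hA.pos x
    rwa [mat, ← h.ins x (k.trans h.lt.le)] at this

/-- the dominant energy condition in the end -/
theorem dec_out {g K : Fld n M} {G H : Field n} (hx : R0 M + 1 / 2 < ‖px x‖)
    (e : g =ᶠ[𝓝 x] fun z => G (px z)) (e' : K =ᶠ[𝓝 x] fun z => H (px z))
    (h : Stmt.covNorm G (Stmt.mom G H) (px x) ≤ Stmt.mu G H (px x)) :
    covNorm g (mom g K) x ≤ mu g K x := by
  rw [A.Fin1.cov_ev e e', A.Fin1.mu_ev (K' := fun z => H (px z)) e e'.eq_of_nhds,
    (tw_px G).cm (tw_px H) hx, (tw_px G).mu (tw_px H) hx]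
  exact h

end Vale.Agent.P366M.Y.B
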